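import Vale.Agent.P224.SMH.Hlim
import Vale.Agent.P224.SM2.Geo

/-!
The static inequality.
-/

namespace Vale.Agent.P224.SMH

open MeasureTheory Set Filter Function Real Module Vale.Agent.P224 Vale.Agent.P224.SM2
open scoped Topology RealInnerProductSpace ContDiff Manifold

set_option linter.unusedSectionVars false

lemma tendsto_sin_left : Tendsto sin (𝓝[<] (π / 2)) (𝓝[<] 1) := by
  have hpi := pi_pos
  refine tendsto_nhdsWithin_iff.2 ⟨?_, ?_⟩
  · have := (continuous_sin.tendsto (π / 2)).mono_left (nhdsWithin_le_nhds (s := Iio (π / 2)))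
    rwa [sin_pi_div_two] at this
  · have h0 : ∀ᶠ φ in 𝓝[<] (π / 2), φ ∈ Ioo 0 (π / 2) := Ioo_mem_nhdsLT (by positivity)
    filter_upwards [h0] with φ hφ
    exact (abs_lt.1 (FV.abs_sin_lt_one ⟨by linarith [hφ.1], hφ.2⟩)).2

section

variable {X : Type*} [MeasurableSpace X] {E : Type*} [NormedAddCommGroup E]
  [InnerProductSpace ℝ E] [MeasurableSpace E] [BorelSpace E] [SecondCountableTopology E]
  {μ : Measure X} [IsFiniteMeasure μ] {m : ℕ} {p n : X → E} {y Z e r : ℝ → ℝ}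

/-- the static inequality for abstract data -/
theorem static_of (h : Two μ m p n) (hm : 2 ≤ m) (hc : Cert m y Z e r) {H H' : ℝ → R4 → ℝ}
    (hH : Stat m y e r H H') {L : R4 → ℝ} (hLm : Measurable L) {g : X × X → ℝ}
    (hg : Integrable g (μ.prod μ))
    (hdom : ∀ T ∈ Ioo (0 : ℝ) 1, ∀ᵐ q ∂(μ.prod μ), |H T (SM2.pr p n q)| ≤ g q)
    (hlim : ∀ᵐ q ∂(μ.prod μ),
      Tendsto (fun T => H T (SM2.pr p n q)) (𝓝[<] 1) (𝓝 (L (SM2.pr p n q)))) {B : ℝ}
    (hlow : ∀ ε > 0, ∀ᶠ φ in 𝓝[<] (π / 2), B - ε ≤ GG μ m p n y Z e r (sin φ)) :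
    Integrable (fun q => L (SM2.pr p n q)) (μ.prod μ) ∧
      ∫ q, L (SM2.pr p n q) ∂(μ.prod μ) + B ≤ GG μ m p n y Z e r 0 := by
  have hmeas := h.measurable_pr
  have h01 : ∀ᶠ T in 𝓝[<] (1 : ℝ), T ∈ Ioo (0 : ℝ) 1 := Ioo_mem_nhdsLT one_pos
  have hHm : ∀ T, AEStronglyMeasurable (fun q => H T (SM2.pr p n q)) (μ.prod μ) := fun T =>
    ((hH.meas T).comp hmeas).aestronglyMeasurable
  have hconv : Tendsto (fun T => ∫ q, H T (SM2.pr p n q) ∂(μ.prod μ)) (𝓝[<] 1)
      (𝓝 (∫ q, L (SM2.pr p n q) ∂(μ.prod μ))) := by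
    refine tendsto_integral_filter_of_dominated_convergence g
      (Eventually.of_forall hHm) ?_ hg hlim
    filter_upwards [h01] with T hT
    filter_upwards [hdom T hT] with q hq
    rwa [Real.norm_eq_abs]
  have hLi : Integrable (fun q => L (SM2.pr p n q)) (μ.prod μ) := by
    refine hg.mono' (hLm.comp hmeas).aestronglyMeasurable ?_
    -- a sequence tending to one
    have hseq : ∀ k : ℕ, (1 - 1 / ((k : ℝ) + 2)) ∈ Ioo (0 : ℝ) 1 := by
      intro k
      have hk : (0 : ℝ) < (k : ℝ) + 2 := by positivity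
      constructor
      · rw [sub_pos, div_lt_one hk]
        have : (0 : ℝ) ≤ k := Nat.cast_nonneg k
        linarith
      · have : 0 < 1 / ((k : ℝ) + 2) := by positivity
        linarith
    have hall : ∀ᵐ q ∂(μ.prod μ), ∀ k : ℕ,
        |H (1 - 1 / ((k : ℝ) + 2)) (SM2.pr p n q)| ≤ g q :=
      ae_all_iff.2 fun k => hdom _ (hseq k)
    have hts : Tendsto (fun k : ℕ => 1 - 1 / ((k : ℝ) + 2)) atTop (𝓝[<] 1) := by
      refine tendsto_nhdsWithin_iff.2 ⟨?_, Eventually.of_forall fun k => (hseq k).2⟩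
      have h1 : Tendsto (fun k : ℕ => 1 / ((k : ℝ) + 2)) atTop (𝓝 0) := by
        have h2 : Tendsto (fun k : ℕ => (k : ℝ) + 2) atTop atTop :=
          tendsto_atTop_add_const_right _ _ tendsto_natCast_atTop_atTop
        simpa using h2.const_div_atTop 1
      simpa using h1.const_sub 1
    filter_upwards [hall, hlim] with q hq hl
    have h3 := (hl.comp hts).abs
    rw [Real.norm_eq_abs]
    exact le_of_tendsto h3 (Eventually.of_forall hq)
  refine ⟨hLi, ?_⟩
  have hconv2 := hconv.comp tendsto_sin_left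
  have h0 : ∀ᶠ φ in 𝓝[<] (π / 2), sin φ ∈ Ioo (0 : ℝ) 1 := tendsto_sin_left.eventually h01
  have hanti := antitone_GH h hm hc hH
  have hz : ∫ q, H 0 (SM2.pr p n q) ∂(μ.prod μ) = 0 := by simp [hH.zero]
  refine le_of_forall_pos_le_add fun ε hε => ?_
  have hle : ∀ᶠ φ in 𝓝[<] (π / 2),
      ∫ q, H (sin φ) (SM2.pr p n q) ∂(μ.prod μ) ≤ GG μ m p n y Z e r 0 + ε - B := by
    filter_upwards [h0, hlow ε hε] with φ hφ hl
    have h1 := hanti ⟨le_rfl, one_pos⟩ ⟨hφ.1.le, hφ.2⟩ hφ.1.le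
    simp only at h1
    rw [hz, add_zero] at h1
    linarith
  have := le_of_tendsto hconv2 hle
  linarith

end

section

variable {V W M : Type*} [NormedAddCommGroup V] [InnerProductSpace ℝ V] [FiniteDimensional ℝ V]
  [NormedAddCommGroup W] [InnerProductSpace ℝ W] [FiniteDimensional ℝ W]
  [TopologicalSpace M] [ChartedSpace V M]
  [MeasurableSpace V] [BorelSpace V] [MeasurableSpace M] [BorelSpace M]

/-- the static inequality for an injective minimal immersion -/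
theorem static_inj [MeasurableSpace W] [BorelSpace W] [IsManifold 𝓘(ℝ, V) ∞ M] [CompactSpace M]
    [T2Space M] (hm : 3 ≤ finrank ℝ V) (hW : finrank ℝ W = finrank ℝ V + 2) {F : M → W}
    (hF : SphImm V F) (hmin : ∀ x n, IsUnitNormal V F x n → meanCurv V F x n = 0)
    {N : M → W} (hNs : ContMDiff 𝓘(ℝ, V) 𝓘(ℝ, W) ∞ N) (hN : ∀ x, IsUnitNormal V F x (N x))
    (hinj : Injective F) {y Z e r : ℝ → ℝ} {lam : ℝ} (hlam : 0 ≤ lam)
    (hc : Cert (finrank ℝ V) y Z e r) (hl : CertLim (finrank ℝ V) y Z e r lam)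
    (h0 : y 0 = ((finrank ℝ V : ℝ) - 1) / (finrank ℝ V - 2))
    (h1 : Z 0 = ((finrank ℝ V : ℝ) - 1) / (finrank ℝ V - 2)) (he : e 0 = 0)
    {H H' : ℝ → R4 → ℝ} (hH : Stat (finrank ℝ V) y e r H H') {L : R4 → ℝ} (hLm : Measurable L)
    {g : M × M → ℝ} (hg : Integrable g ((volM V F).prod (volM V F)))
    (hdom : ∀ T ∈ Ioo (0 : ℝ) 1, ∀ᵐ q ∂((volM V F).prod (volM V F)),
      |H T (SM2.pr F N q)| ≤ g q)
    (hlim : ∀ᵐ q ∂((volM V F).prod (volM V F)),
      Tendsto (fun T => H T (SM2.pr F N q)) (𝓝[<] 1) (𝓝 (L (SM2.pr F N q)))) :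
    Integrable (fun q => L (SM2.pr F N q)) ((volM V F).prod (volM V F)) ∧
      ∫ q, L (SM2.pr F N q) ∂((volM V F).prod (volM V F))
        + 2 * lam * (sphereVol (finrank ℝ V) * (volM V F).real univ)
      ≤ (volM V F).real univ ^ 2 + finrank ℝ V * r 0 * ‖∫ x, N x ∂(volM V F)‖ ^ 2 := by
  have hfin : IsFiniteMeasure (volM V F) := isFiniteMeasure_volM hF
  have hm1 : 1 ≤ finrank ℝ V := by omega
  have hT := FV.twoPt_of_min hm1 hW hF hmin hNs hN
  have h2 := two_of_min hW hF hmin hNs hN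
  have hcF : Continuous F := hF.smooth.continuous
  have hcN : Continuous N := hNs.continuous
  obtain ⟨hL, hJB⟩ := FV.limits hm1 hW hF hcN hT hinj
  have hJle := JJ_le hF hT
  have hJP : ∀ ε > 0, ∀ᶠ φ in 𝓝[<] (π / 2), |FV.JJ (volM V F) (finrank ℝ V) F φ
      - FV.BB (volM V F) (finrank ℝ V) F F φ| ≤ ε := fun ε hε =>
    FV.limit_JB (by omega) hcF hcF hcF.measurable hcF.measurable hinj hF.unit hF.unit hJle hε
  have hpi := pi_pos
  have hM : ∀ φ ∈ Ioo 0 (π / 2),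
      |FV.JJ (volM V F) (finrank ℝ V) F φ| ≤ (volM V F).real univ ^ 2 := by
    intro φ hφ
    rw [abs_of_nonneg (JJ_nonneg hF.unit ⟨by linarith [hφ.1], hφ.2⟩)]
    exact hJle φ ⟨hφ.1.le, hφ.2⟩
  have hlow := lower_ev h2 hm hc hlam hl hL hJB hJP hM
  have hfinal := static_of h2 (by omega) hc hH hLm hg hdom hlim hlow
  have hnint : Integrable N (volM V F) :=
    hcN.integrable_of_hasCompactSupport (HasCompactSupport.of_compactSpace N)
  have hnn : Integrable (fun q : M × M => ⟪N q.1, N q.2⟫) ((volM V F).prod (volM V F)) :=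
    integrable_param ((volM V F).prod (volM V F)) h2.measurable_pr isCompact_KK h2.pr_mem
      (f := fun k => k.2.2.2) (by fun_prop) (by fun_prop)
  rwa [GG_zero hm hnint hnn h0 h1 he] at hfinal

end

end Vale.Agent.P224.SMH
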