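import Vale.Agent.P224.SM2.Ana5

/-!
The explicit certificate functions in dimension four, with polynomial bounds.
-/

namespace Vale.Agent.P224.SMH

open Set Filter Function Real
open scoped Topology
open Vale.Agent.P224.SM2

/-! ### Logarithms -/

/-- partial sums of `-log (1 - x)` -/
noncomputable def Ls (n : ℕ) (x : ℝ) : ℝ := ∑ k ∈ Finset.range n, x ^ (k + 1) / ((k : ℝ) + 1)

lemma Ls_le {x : ℝ} (h0 : 0 ≤ x) (h1 : x < 1) (n : ℕ) : Ls n x ≤ -log (1 - x) := by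
  have h := hasSum_pow_div_log_of_abs_lt_one (x := x) (by rw [abs_of_nonneg h0]; exact h1)
  exact sum_le_hasSum _ (fun k _ => by positivity) h

lemma log_le_Ls {x : ℝ} (h0 : 0 ≤ x) (h1 : x < 1) (n : ℕ) :
    (1 - x) * -log (1 - x) ≤ (1 - x) * Ls n x + x ^ (n + 1) / ((n : ℝ) + 1) := by
  have h := hasSum_pow_div_log_of_abs_lt_one (x := x) (by rw [abs_of_nonneg h0]; exact h1)
  have h2 := (hasSum_nat_add_iff' n).2 h
  have h3 := (hasSum_geometric_of_lt_one h0 h1).mul_left (x ^ (n + 1) / ((n : ℝ) + 1))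
  have h4 : -log (1 - x) - ∑ i ∈ Finset.range n, x ^ (i + 1) / ((i : ℝ) + 1)
      ≤ x ^ (n + 1) / ((n : ℝ) + 1) * (1 - x)⁻¹ := by
    refine hasSum_le (fun k => ?_) h2 h3
    have e1 : x ^ (n + 1) / ((n : ℝ) + 1) * x ^ k = x ^ (k + n + 1) / ((n : ℝ) + 1) := by
      rw [div_mul_eq_mul_div, ← pow_add]
      congr 2
      ring
    rw [e1]
    refine div_le_div_of_nonneg_left (pow_nonneg h0 _) (by positivity) ?_
    push_cast
    linarith [Nat.cast_nonneg (α := ℝ) k]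
  have h5 : 0 < 1 - x := by linarith
  have h6 := mul_le_mul_of_nonneg_left h4 h5.le
  have e2 : (1 - x) * (x ^ (n + 1) / ((n : ℝ) + 1) * (1 - x)⁻¹) = x ^ (n + 1) / ((n : ℝ) + 1) := by
    field_simp
  rw [e2] at h6
  unfold Ls
  linarith

/-! ### The functions -/

noncomputable def y4 (T : ℝ) : ℝ := 3 / 2 * (1 - T)

noncomputable def Z4 (T : ℝ) : ℝ := 3 / 2 * (1 - T) ^ 2

noncomputable def e4 (T : ℝ) : ℝ := 3 / 2 * (T * (1 - T ^ 2) / 2 + T * (T * log T))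

noncomputable def r4 (T : ℝ) : ℝ :=
  3 / 2 * ((1 - T ^ 2) * ((log 2 - log (1 + T)) / 2 - 1 / 4) - T * (T * log T) / 2)

/-- lower bound of `e4` -/
noncomputable def e4l (n : ℕ) (T : ℝ) : ℝ :=
  3 / 2 * T * ((1 - T ^ 2) / 2 - T * Ls n (1 - T) - (1 - T) ^ (n + 1) / ((n : ℝ) + 1))

/-- upper bound of `e4` -/
noncomputable def e4u (n : ℕ) (T : ℝ) : ℝ := 3 / 2 * T * ((1 - T ^ 2) / 2 - T * Ls n (1 - T))

/-- lower bound of `r4` -/
noncomputable def r4l (n : ℕ) (T : ℝ) : ℝ :=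
  3 / 2 * ((1 - T ^ 2) * (Ls n ((1 - T) / 2) / 2 - 1 / 4) + T ^ 2 * Ls n (1 - T) / 2)

/-- upper bound of `r4` -/
noncomputable def r4u (n : ℕ) (T : ℝ) : ℝ :=
  3 / 2 * ((1 - T ^ 2) * (Ls n ((1 - T) / 2) / 2 - 1 / 4) + T ^ 2 * Ls n (1 - T) / 2
    + (1 - T) * ((1 - T) / 2) ^ (n + 1) / ((n : ℝ) + 1) + T * (1 - T) ^ (n + 1) / ((n : ℝ) + 1) / 2)

section bounds

variable {T : ℝ}

lemma log_T (hT : T ∈ Ioc (0 : ℝ) 1) (n : ℕ) : Ls n (1 - T) ≤ -log T ∧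
    T * -log T ≤ T * Ls n (1 - T) + (1 - T) ^ (n + 1) / ((n : ℝ) + 1) := by
  have h0 : 0 ≤ 1 - T := by linarith [hT.2]
  have h1 : 1 - T < 1 := by linarith [hT.1]
  have a := Ls_le h0 h1 n
  have b := log_le_Ls h0 h1 n
  rw [show 1 - (1 - T) = T by ring] at a b
  exact ⟨a, b⟩

lemma log_half (hT : T ∈ Icc (0 : ℝ) 1) (n : ℕ) :
    Ls n ((1 - T) / 2) ≤ log 2 - log (1 + T) ∧
    (1 + T) / 2 * (log 2 - log (1 + T)) ≤ (1 + T) / 2 * Ls n ((1 - T) / 2)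
      + ((1 - T) / 2) ^ (n + 1) / ((n : ℝ) + 1) := by
  have h0 : 0 ≤ (1 - T) / 2 := by linarith [hT.2]
  have h1 : (1 - T) / 2 < 1 := by linarith [hT.1]
  have a := Ls_le h0 h1 n
  have b := log_le_Ls h0 h1 n
  have e : -log (1 - (1 - T) / 2) = log 2 - log (1 + T) := by
    rw [show 1 - (1 - T) / 2 = (1 + T) / 2 by ring, log_div (by linarith [hT.1]) two_ne_zero]
    ring
  rw [e] at a b
  rw [show 1 - (1 - T) / 2 = (1 + T) / 2 by ring] at b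
  exact ⟨a, b⟩

theorem e4l_le (hT : T ∈ Icc (0 : ℝ) 1) (n : ℕ) : e4l n T ≤ e4 T := by
  rcases eq_or_lt_of_le hT.1 with h | h
  · rw [← h]; simp [e4l, e4]
  · have h1 := (log_T ⟨h, hT.2⟩ n).2
    have h2 := mul_le_mul_of_nonneg_left h1 (by positivity : 0 ≤ 3 / 2 * T)
    unfold e4l e4
    nlinarith [h2]

theorem e4_le (hT : T ∈ Icc (0 : ℝ) 1) (n : ℕ) : e4 T ≤ e4u n T := by
  rcases eq_or_lt_of_le hT.1 with h | h
  · rw [← h]; simp [e4u, e4]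
  · have h1 := (log_T ⟨h, hT.2⟩ n).1
    have h2 := mul_le_mul_of_nonneg_left h1 (by positivity : 0 ≤ 3 / 2 * T * T)
    unfold e4u e4
    nlinarith [h2]

theorem r4l_le (hT : T ∈ Icc (0 : ℝ) 1) (n : ℕ) : r4l n T ≤ r4 T := by
  have h3 := (log_half hT n).1
  have h5 : 0 ≤ 1 - T ^ 2 := by nlinarith [hT.1, hT.2]
  have h4 := mul_le_mul_of_nonneg_left h3 h5
  have h2 : T ^ 2 * Ls n (1 - T) ≤ -(T * (T * log T)) := by
    rcases eq_or_lt_of_le hT.1 with h | h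
    · rw [← h]; simp
    · have h1 := mul_le_mul_of_nonneg_left (log_T ⟨h, hT.2⟩ n).1 (by positivity : 0 ≤ T ^ 2)
      linarith
  unfold r4l r4
  nlinarith [h2, h4]

theorem r4_le (hT : T ∈ Icc (0 : ℝ) 1) (n : ℕ) : r4 T ≤ r4u n T := by
  have h3 := (log_half hT n).2
  have h5 : 0 ≤ 2 * (1 - T) := by linarith [hT.2]
  have h4 := mul_le_mul_of_nonneg_left h3 h5
  have e : 2 * (1 - T) * ((1 + T) / 2 * (log 2 - log (1 + T)))
      = (1 - T ^ 2) * (log 2 - log (1 + T)) := by ring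
  have e' : 2 * (1 - T) * ((1 + T) / 2 * Ls n ((1 - T) / 2) + ((1 - T) / 2) ^ (n + 1) / ((n : ℝ) + 1))
      = (1 - T ^ 2) * Ls n ((1 - T) / 2)
        + 2 * ((1 - T) * ((1 - T) / 2) ^ (n + 1) / ((n : ℝ) + 1)) := by ring
  rw [e, e'] at h4
  have h2 : -(T * (T * log T)) ≤ T ^ 2 * Ls n (1 - T) + T * (1 - T) ^ (n + 1) / ((n : ℝ) + 1) := by
    rcases eq_or_lt_of_le hT.1 with h | h
    · rw [← h]; simp
    · have h1 := mul_le_mul_of_nonneg_left (log_T ⟨h, hT.2⟩ n).2 h.le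
      have e2 : T * (T * Ls n (1 - T) + (1 - T) ^ (n + 1) / ((n : ℝ) + 1))
          = T ^ 2 * Ls n (1 - T) + T * (1 - T) ^ (n + 1) / ((n : ℝ) + 1) := by ring
      rw [e2] at h1
      linarith
  unfold r4u r4
  linarith

end bounds

/-! ### Positivity -/

section pos

variable {T : ℝ}

lemma e4_nonneg (hT : T ∈ Icc (0 : ℝ) 1) : 0 ≤ e4 T := by
  refine le_trans ?_ (e4l_le hT 2)
  have h0 := hT.1
  have h1 : 0 ≤ 1 - T := by linarith [hT.2]
  have e : e4l 2 T = T * (1 - T) ^ 3 / 4 := by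
    unfold e4l Ls
    simp [Finset.sum_range_succ]
    ring
  rw [e]
  positivity

lemma r4_nonneg (hT : T ∈ Icc (0 : ℝ) 1) : 0 ≤ r4 T := by
  refine le_trans ?_ (r4l_le hT 4)
  have h0 := hT.1
  have h1 : 0 ≤ 1 - T := by linarith [hT.2]
  have e : r4l 4 T = 3 / 2 * (35 / 384 * (1 - T) ^ 6 + 5 / 64 * T * (1 - T) ^ 5
      + 7 / 48 * T ^ 2 * (1 - T) ^ 4 + 1 / 24 * T ^ 3 * (1 - T) ^ 3) := by
    unfold r4l Ls
    simp [Finset.sum_range_succ]
    ring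
  rw [e]
  positivity

lemma y4_nonneg (hT : T ∈ Icc (0 : ℝ) 1) : 0 ≤ y4 T := by
  unfold y4
  linarith [hT.2]

/-- the denominator -/
lemma D4_nonneg (T : ℝ) : 0 ≤ (4 - 2) * (1 - T ^ 2) ^ 2 + 4 * (4 + 2) * T ^ 2 := by positivity

lemma e4_mul_le (hT : T ∈ Icc (0 : ℝ) 1) :
    e4 T * ((4 - 2) * (1 - T ^ 2) ^ 2 + 4 * (4 + 2) * T ^ 2) ≤ y4 T * (T * (1 - T ^ 2) ^ 2) := by
  have h0 := hT.1
  have h1 : 0 ≤ 1 - T := by linarith [hT.2]
  refine (mul_le_mul_of_nonneg_right (e4_le hT 4) (D4_nonneg T)).trans ?_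
  have e : y4 T * (T * (1 - T ^ 2) ^ 2)
      - e4u 4 T * ((4 - 2) * (1 - T ^ 2) ^ 2 + 4 * (4 + 2) * T ^ 2)
      = 3 / 2 * T * (19 / 6 * T * (1 - T) ^ 8 + 19 / 3 * T ^ 2 * (1 - T) ^ 7
        + 16 / 3 * T ^ 3 * (1 - T) ^ 6 + 11 / 3 * T ^ 4 * (1 - T) ^ 5
        + 2 * T ^ 5 * (1 - T) ^ 4) := by
    unfold e4u Ls y4
    simp [Finset.sum_range_succ]
    ring
  have h2 : 0 ≤ 3 / 2 * T * (19 / 6 * T * (1 - T) ^ 8 + 19 / 3 * T ^ 2 * (1 - T) ^ 7
        + 16 / 3 * T ^ 3 * (1 - T) ^ 6 + 11 / 3 * T ^ 4 * (1 - T) ^ 5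
        + 2 * T ^ 5 * (1 - T) ^ 4) := by positivity
  linarith

lemma r4_mul_le (hT : T ∈ Icc (0 : ℝ) 1) :
    r4 T * (2 * ((4 - 2) * (1 - T ^ 2) ^ 2 + 4 * (4 + 2) * T ^ 2))
      ≤ y4 T * ((1 - T) ^ 2 * (1 + T ^ 2)) := by
  have h0 := hT.1
  have h1 : 0 ≤ 1 - T := by linarith [hT.2]
  refine (mul_le_mul_of_nonneg_right (r4_le hT 3)
    (mul_nonneg zero_le_two (D4_nonneg T))).trans ?_
  have e : y4 T * ((1 - T) ^ 2 * (1 + T ^ 2))
      - r4u 3 T * (2 * ((4 - 2) * (1 - T ^ 2) ^ 2 + 4 * (4 + 2) * T ^ 2))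
      = 3 / 2 * (29 / 48 * (1 - T) ^ 9 + 4 * T * (1 - T) ^ 8 + 47 / 6 * T ^ 2 * (1 - T) ^ 7
        + 43 / 6 * T ^ 3 * (1 - T) ^ 6 + 43 / 12 * T ^ 4 * (1 - T) ^ 5
        + T ^ 5 * (1 - T) ^ 4) := by
    unfold r4u Ls y4
    simp [Finset.sum_range_succ]
    ring
  have h2 : 0 ≤ 3 / 2 * (29 / 48 * (1 - T) ^ 9 + 4 * T * (1 - T) ^ 8 + 47 / 6 * T ^ 2 * (1 - T) ^ 7
        + 43 / 6 * T ^ 3 * (1 - T) ^ 6 + 43 / 12 * T ^ 4 * (1 - T) ^ 5
        + T ^ 5 * (1 - T) ^ 4) := by positivity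
  linarith

end pos

/-! ### The certificate -/

lemma continuous_e4 : Continuous e4 := by
  have h := continuous_mul_log
  unfold e4
  fun_prop

lemma contOn_r4 : ContinuousOn r4 (Ico 0 1) := by
  have h : ContinuousOn (fun T : ℝ => T * log T) (Ico 0 1) := continuous_mul_log.continuousOn
  have h2 : ContinuousOn (fun T : ℝ => log (1 + T)) (Ico 0 1) := by
    refine ContinuousOn.log (by fun_prop) fun x hx => ?_
    have := hx.1
    positivity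
  unfold r4
  fun_prop

/-- **The certificate in dimension four.** -/
theorem cert4 : Cert 4 y4 Z4 e4 r4 := by
  have hpos : ∀ T ∈ Ioo (0 : ℝ) 1, ∀ v ∈ Icc (1 - T) (1 + T), _ := fun T hT v hv =>
    pos_of_pol (m := 4) (T := T) (y := y4 T) (e := e4 T) (r := r4 T)
      (D := (4 - 2) * (1 - T ^ 2) ^ 2 + 4 * (4 + 2) * T ^ 2)
      (G := (1 - T) ^ 2 * (1 + T ^ 2)) le_rfl hT
      (y4_nonneg ⟨hT.1.le, hT.2.le⟩) (e4_nonneg ⟨hT.1.le, hT.2.le⟩)
      (r4_nonneg ⟨hT.1.le, hT.2.le⟩) rfl rfl (e4_mul_le ⟨hT.1.le, hT.2.le⟩)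
      (r4_mul_le ⟨hT.1.le, hT.2.le⟩)
      (by simpa using polA_nonneg (m := 4) (by norm_num) (by norm_num) hT.1.le hT.2.le)
      (by simpa using polB_nonneg (m := 4) (by norm_num) (by norm_num) hT.1.le hT.2.le)
      (by simpa using polC_nonneg (m := 4) (by norm_num) (by norm_num) hT.1.le hT.2.le) hv
  refine ⟨?_, ?_, continuous_e4.continuousOn, contOn_r4, ?_, ?_, ?_, ?_, ?_, ?_, ?_, ?_, ?_, ?_⟩
  · unfold y4; fun_prop
  · unfold Z4; fun_prop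
  · intro T hT
    have h := ((hasDerivAt_id T).const_sub 1).const_mul (3 / 2 : ℝ)
    refine h.congr_deriv ?_
    have h1 : T ≠ 0 := hT.1.ne'
    have h2 : 1 - T ^ 2 ≠ 0 := by nlinarith [hT.1, hT.2]
    unfold y4 Z4
    push_cast
    field_simp
    ring
  · intro T hT
    have h := (((hasDerivAt_id T).const_sub 1).fun_pow 2).const_mul (3 / 2 : ℝ)
    refine h.congr_deriv ?_
    have h1 : T ≠ 0 := hT.1.ne'
    unfold y4 Z4
    simp only [id_eq]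
    push_cast
    field_simp
    ring
  · intro T hT
    have h1 : T ≠ 0 := hT.1.ne'
    have hl := (hasDerivAt_id T).fun_mul ((hasDerivAt_id T).fun_mul (hasDerivAt_log h1))
    have hp := ((hasDerivAt_id T).fun_mul (((hasDerivAt_id T).fun_pow 2).const_sub 1)).div_const 2
    have h := (hp.fun_add hl).const_mul (3 / 2 : ℝ)
    refine h.congr_deriv ?_
    unfold e4 Z4
    simp only [id_eq]
    push_cast
    field_simp
    ring
  · intro T hT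
    have h1 : T ≠ 0 := hT.1.ne'
    have h2 : 1 - T ^ 2 ≠ 0 := by nlinarith [hT.1, hT.2]
    have h3 : 1 + T ≠ 0 := by linarith [hT.1]
    have hl := ((hasDerivAt_id T).fun_mul ((hasDerivAt_id T).fun_mul (hasDerivAt_log h1))).div_const 2
    have hq := ((((hasDerivAt_id T).const_add 1).log h3).const_sub (log 2)).div_const 2
    have hp := (((hasDerivAt_id T).fun_pow 2).const_sub 1).fun_mul (hq.sub_const (1 / 4))
    have h := (hp.fun_sub hl).const_mul (3 / 2 : ℝ)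
    refine h.congr_deriv ?_
    unfold e4 r4
    simp only [id_eq]
    push_cast
    field_simp
    ring
  · exact fun T hT => e4_nonneg ⟨hT.1.le, hT.2.le⟩
  · exact fun T hT => r4_nonneg ⟨hT.1.le, hT.2.le⟩
  · exact fun T hT => y4_nonneg ⟨hT.1.le, hT.2.le⟩
  · exact fun T hT v hv => by simpa using (hpos T hT v hv).1
  · exact fun T hT v hv => by simpa using (hpos T hT v hv).2.1
  · exact fun T hT v hv => by simpa using (hpos T hT v hv).2.2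

lemma e4_le_cube {T : ℝ} (hT : T ∈ Icc (0 : ℝ) 1) : e4 T ≤ (1 - T) ^ 3 := by
  have h0 := hT.1
  have h1 : 0 ≤ 1 - T := by linarith [hT.2]
  refine (e4_le hT 3).trans ?_
  have e : (1 - T) ^ 3 - e4u 3 T = (1 - T) ^ 3 * (1 - 3 / 2 * T * (1 / 6 + (1 - T) / 3)) := by
    unfold e4u Ls
    simp [Finset.sum_range_succ]
    ring
  have h2 : 0 ≤ (1 - T) ^ 3 * (1 - 3 / 2 * T * (1 / 6 + (1 - T) / 3)) := by
    refine mul_nonneg (by positivity) ?_
    nlinarith [hT.2, mul_nonneg h0 h1]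
  linarith

lemma r4_le_cube {T : ℝ} (hT : T ∈ Icc (0 : ℝ) 1) : r4 T ≤ (1 - T) ^ 3 := by
  have h0 := hT.1
  have h1 : 0 ≤ 1 - T := by linarith [hT.2]
  refine (r4_le hT 2).trans ?_
  have e : (1 - T) ^ 3 - r4u 2 T = (1 - T) ^ 3 * (27 / 32 + T * 3 / 32) := by
    unfold r4u Ls
    simp [Finset.sum_range_succ]
    ring
  have h2 : 0 ≤ (1 - T) ^ 3 * (27 / 32 + T * 3 / 32) := by positivity
  linarith

/-- the limits -/
theorem certLim4 : CertLim 4 y4 Z4 e4 r4 (3 / 4) := by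
  have hpi := pi_pos
  set F := 𝓝[<] (π / 2) with hF
  have h0 : ∀ᶠ φ in F, φ ∈ Ioo 0 (π / 2) := Ioo_mem_nhdsLT (by positivity)
  have hsin : Tendsto (fun φ => sin φ) F (𝓝 1) := by
    have := (continuous_sin.tendsto (π / 2)).mono_left (nhdsWithin_le_nhds (s := Iio (π / 2)))
    rwa [sin_pi_div_two] at this
  have hmem : ∀ φ ∈ Ioo 0 (π / 2), sin φ ∈ Ioo (0 : ℝ) 1 ∧ 0 < cos φ ∧
      cos φ ^ 2 = (1 - sin φ) * (1 + sin φ) := by
    intro φ hφ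
    have hc : 0 < cos φ := cos_pos_of_mem_Ioo ⟨by linarith [hφ.1], hφ.2⟩
    have hs : 0 < sin φ := sin_pos_of_pos_of_lt_pi hφ.1 (by linarith [hφ.2])
    refine ⟨⟨hs, ?_⟩, hc, ?_⟩
    · nlinarith [sin_sq_add_cos_sq φ, sin_le_one φ]
    · linarith [sin_sq_add_cos_sq φ]
  refine ⟨?_, ?_, ⟨3 / 2, ?_⟩, ?_⟩
  · have h1 : Tendsto (fun φ => 3 / 2 / (1 + sin φ)) F (𝓝 (3 / 4)) := by
      have := (tendsto_const_nhds (x := (3 / 2 : ℝ))).div (hsin.const_add 1)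
        (by norm_num : (1 : ℝ) + 1 ≠ 0)
      rwa [show (3 : ℝ) / 2 / (1 + 1) = 3 / 4 by norm_num] at this
    refine h1.congr' ?_
    filter_upwards [h0] with φ hφ
    obtain ⟨hs, hcos, hc2⟩ := hmem φ hφ
    have a1 : 1 - sin φ ≠ 0 := by linarith [hs.2]
    have a2 : 1 + sin φ ≠ 0 := by linarith [hs.1]
    rw [show 4 - 2 = 2 from rfl, hc2]
    unfold y4
    field_simp
  · have h1 : Tendsto (fun φ => 1 - sin φ) F (𝓝 0) := by
      have := hsin.const_sub 1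
      rwa [sub_self] at this
    refine squeeze_zero' ?_ ?_ h1
    · filter_upwards [h0] with φ hφ
      obtain ⟨hs, hcos, hc2⟩ := hmem φ hφ
      exact div_nonneg (e4_nonneg ⟨hs.1.le, hs.2.le⟩) (pow_nonneg hcos.le _)
    · filter_upwards [h0] with φ hφ
      obtain ⟨hs, hcos, hc2⟩ := hmem φ hφ
      have h2 := e4_le_cube ⟨hs.1.le, hs.2.le⟩
      rw [div_le_iff₀ (pow_pos hcos 4)]
      have e1 : cos φ ^ 4 = ((1 - sin φ) * (1 + sin φ)) ^ 2 := by rw [← hc2]; ring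
      rw [e1]
      refine h2.trans ?_
      have e2 : (1 - sin φ) * ((1 - sin φ) * (1 + sin φ)) ^ 2
          = (1 - sin φ) ^ 3 * (1 + sin φ) ^ 2 := by ring
      rw [e2]
      have a1 : 0 ≤ (1 - sin φ) ^ 3 := pow_nonneg (by linarith [hs.2]) 3
      nlinarith [hs.1, mul_nonneg a1 hs.1.le, mul_nonneg a1 (mul_nonneg hs.1.le hs.1.le)]
  · filter_upwards [h0] with φ hφ
    obtain ⟨hs, hcos, hc2⟩ := hmem φ hφ
    have e1 : cos φ ^ 4 = ((1 - sin φ) * (1 + sin φ)) ^ 2 := by rw [← hc2]; ring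
    have a1 : 0 < (1 - sin φ) ^ 2 := pow_pos (by linarith [hs.2]) 2
    have a2 : 1 ≤ (1 + sin φ) ^ 2 := by nlinarith [hs.1]
    have a3 : 0 < (1 + sin φ) ^ 2 := by linarith
    rw [e1]
    unfold Z4
    have a4 : 0 < ((1 - sin φ) * (1 + sin φ)) ^ 2 := by
      rw [mul_pow]
      exact mul_pos a1 a3
    rw [abs_of_nonneg (div_nonneg (by positivity) a4.le), div_le_iff₀ a4, mul_pow]
    nlinarith
  · have h1 : Tendsto (fun φ => 1 - sin φ) F (𝓝 0) := by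
      have := hsin.const_sub 1
      rwa [sub_self] at this
    refine squeeze_zero' ?_ ?_ h1
    · filter_upwards [h0] with φ hφ
      obtain ⟨hs, hcos, hc2⟩ := hmem φ hφ
      exact div_nonneg (r4_nonneg ⟨hs.1.le, hs.2.le⟩)
        (mul_nonneg (pow_nonneg hcos.le _) (by linarith [hs.2]))
    · filter_upwards [h0] with φ hφ
      obtain ⟨hs, hcos, hc2⟩ := hmem φ hφ
      have h2 := r4_le_cube ⟨hs.1.le, hs.2.le⟩
      have h1s : 0 < 1 - sin φ := by linarith [hs.2]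
      rw [show 4 - 2 = 2 from rfl, hc2, div_le_iff₀ (by
        have := hs.1
        positivity)]
      refine h2.trans ?_
      have a1 : 0 ≤ (1 - sin φ) ^ 3 := pow_nonneg (by linarith [hs.2]) 3
      nlinarith [hs.1, mul_nonneg a1 hs.1.le]

lemma y4_zero : y4 0 = ((4 : ℝ) - 1) / (4 - 2) := by unfold y4; norm_num
lemma Z4_zero : Z4 0 = ((4 : ℝ) - 1) / (4 - 2) := by unfold Z4; norm_num
lemma e4_zero : e4 0 = 0 := by unfold e4; norm_num
lemma r4_zero : 4 * r4 0 = 3 * log 2 - 3 / 2 := by unfold r4; norm_num; ring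

end Vale.Agent.P224.SMH
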