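import Vale.Agent.P224.SMH.Static
import Vale.Agent.P224.UE.LawS

/-!
The static inequality in the form used by the law.
-/

namespace Vale.Agent.P224.SMH

open MeasureTheory Set Filter Function Real Module Vale.Agent.P224 Vale.Agent.P224.SM2
open Vale.Agent.P224.UE
open scoped Topology RealInnerProductSpace ContDiff Manifold

set_option linter.unusedSectionVars false

/-- pair data as data of the law -/
def r9 (k : R4) : R9 := ![k.1, k.2.1, k.2.2.1, k.2.2.2, 0, 0, 0, 0, 0]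

lemma measurable_r9 : Measurable r9 := by
  rw [measurable_pi_iff]
  intro i
  fin_cases i <;> simp only [r9] <;> fun_prop

/-- a function of the first four coordinates -/
def F4 (L : R9 → ℝ) : Prop :=
  ∀ d d' : R9, d 0 = d' 0 → d 1 = d' 1 → d 2 = d' 2 → d 3 = d' 3 → L d = L d'

lemma r9_0 (k : R4) : r9 k 0 = k.1 := rfl
lemma r9_1 (k : R4) : r9 k 1 = k.2.1 := rfl
lemma r9_2 (k : R4) : r9 k 2 = k.2.2.1 := rfl
lemma r9_3 (k : R4) : r9 k 3 = k.2.2.2 := rfl

lemma F4.dat_eq {L : R9 → ℝ} (hL : F4 L) {X E : Type*} [NormedAddCommGroup E]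
    [InnerProductSpace ℝ E] (p n : X → E) (v : E) :
    (fun q => L (dat p n v q)) = fun q => L (r9 (SM2.pr p n q)) := by
  funext q
  refine hL _ _ ?_ ?_ ?_ ?_
  · rw [r9_0]; rfl
  · rw [r9_1]; rfl
  · rw [r9_2]; rfl
  · rw [r9_3]; rfl

section

variable {V W M : Type*} [NormedAddCommGroup V] [InnerProductSpace ℝ V] [FiniteDimensional ℝ V]
  [NormedAddCommGroup W] [InnerProductSpace ℝ W] [FiniteDimensional ℝ W]
  [TopologicalSpace M] [ChartedSpace V M]
  [MeasurableSpace V] [BorelSpace V] [MeasurableSpace M] [BorelSpace M]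
  [MeasurableSpace W] [BorelSpace W]

/-- the static inequality for functions of the data of the law -/
theorem static_dat [IsManifold 𝓘(ℝ, V) ∞ M] [CompactSpace M]
    [T2Space M] (hm : 3 ≤ finrank ℝ V) (hW : finrank ℝ W = finrank ℝ V + 2) {F : M → W}
    (hF : SphImm V F) (hmin : ∀ x n, IsUnitNormal V F x n → meanCurv V F x n = 0)
    {N : M → W} (hNs : ContMDiff 𝓘(ℝ, V) 𝓘(ℝ, W) ∞ N) (hN : ∀ x, IsUnitNormal V F x (N x))
    (hinj : Injective F) {y Z e r : ℝ → ℝ} {lam : ℝ} (hlam : 0 ≤ lam)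
    (hc : Cert (finrank ℝ V) y Z e r) (hl : CertLim (finrank ℝ V) y Z e r lam)
    (h0 : y 0 = ((finrank ℝ V : ℝ) - 1) / (finrank ℝ V - 2))
    (h1 : Z 0 = ((finrank ℝ V : ℝ) - 1) / (finrank ℝ V - 2)) (he : e 0 = 0)
    {H H' : ℝ → R4 → ℝ} (hH : Stat (finrank ℝ V) y e r H H') {L : R9 → ℝ} (hLm : Measurable L)
    (hL4 : F4 L)
    {g : M × M → ℝ} (hg : Integrable g ((volM V F).prod (volM V F)))
    (hdom : ∀ T ∈ Ioo (0 : ℝ) 1, ∀ᵐ q ∂((volM V F).prod (volM V F)),
      |H T (SM2.pr F N q)| ≤ g q)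
    (hlim : ∀ᵐ q ∂((volM V F).prod (volM V F)),
      Tendsto (fun T => H T (SM2.pr F N q)) (𝓝[<] 1) (𝓝 (L (r9 (SM2.pr F N q))))) (v : W) :
    Integrable (fun q => L (dat F N v q)) ((volM V F).prod (volM V F)) ∧
      ∫ q, L (dat F N v q) ∂((volM V F).prod (volM V F))
        + 2 * lam * (sphereVol (finrank ℝ V) * (volM V F).real univ)
      ≤ (volM V F).real univ ^ 2 + finrank ℝ V * r 0 * ‖∫ x, N x ∂(volM V F)‖ ^ 2 := by
  rw [hL4.dat_eq F N v]
  exact static_inj hm hW hF hmin hNs hN hinj hlam hc hl h0 h1 he hH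
    (L := fun k => L (r9 k)) (hLm.comp measurable_r9) hg hdom hlim

end

end Vale.Agent.P224.SMH
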