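import Vale.Agent.P224.SMH.Cmp
import Vale.Agent.P224.SMH.E4

/-!
Polynomial bounds of the coefficient functions in dimension four (data of the static inequality).
-/

namespace Vale.Agent.P224.SMH

open Set Filter Function Real
open scoped Topology
open Vale.Agent.P224.SM2

/-- cubic factor -/
noncomputable def Pel (T : ℝ) : ℝ := (610 - 942 * T + 996 * T ^ 2 - 425 * T ^ 3) / 1000

/-- derivative -/
noncomputable def Pel' (T : ℝ) : ℝ := (-942 + 1992 * T - 1275 * T ^ 2) / 1000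

lemma hasDerivAt_Pel (T : ℝ) : HasDerivAt Pel (Pel' T) T := by
  have h1 := (hasDerivAt_id T).const_mul (-942 : ℝ)
  have h2 := (hasDerivAt_pow 2 T).const_mul (996 : ℝ)
  have h3 := (hasDerivAt_pow 3 T).const_mul (-425 : ℝ)
  have h := (((h1.fun_add h2).fun_add h3).const_add (610 : ℝ)).div_const 1000
  have e : Pel = fun T => (610 + (-942 * id T + 996 * T ^ 2 + -425 * T ^ 3)) / 1000 := by
    funext T
    unfold Pel
    simp only [id_eq]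
    ring
  rw [e]
  refine h.congr_deriv ?_
  unfold Pel'
  push_cast
  ring

lemma continuous_Pel : Continuous Pel := by
  unfold Pel
  fun_prop

/-- cubic factor -/
noncomputable def Peu (T : ℝ) : ℝ := (754 - 1551 * T + 1890 * T ^ 2 - 841 * T ^ 3) / 1000

/-- derivative -/
noncomputable def Peu' (T : ℝ) : ℝ := (-1551 + 3780 * T - 2523 * T ^ 2) / 1000

lemma hasDerivAt_Peu (T : ℝ) : HasDerivAt Peu (Peu' T) T := by
  have h1 := (hasDerivAt_id T).const_mul (-1551 : ℝ)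
  have h2 := (hasDerivAt_pow 2 T).const_mul (1890 : ℝ)
  have h3 := (hasDerivAt_pow 3 T).const_mul (-841 : ℝ)
  have h := (((h1.fun_add h2).fun_add h3).const_add (754 : ℝ)).div_const 1000
  have e : Peu = fun T => (754 + (-1551 * id T + 1890 * T ^ 2 + -841 * T ^ 3)) / 1000 := by
    funext T
    unfold Peu
    simp only [id_eq]
    ring
  rw [e]
  refine h.congr_deriv ?_
  unfold Peu'
  push_cast
  ring

lemma continuous_Peu : Continuous Peu := by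
  unfold Peu
  fun_prop

/-- cubic factor -/
noncomputable def Prl (T : ℝ) : ℝ := (136 - 174 * T + 171 * T ^ 2 - 74 * T ^ 3) / 1000

/-- derivative -/
noncomputable def Prl' (T : ℝ) : ℝ := (-174 + 342 * T - 222 * T ^ 2) / 1000

lemma hasDerivAt_Prl (T : ℝ) : HasDerivAt Prl (Prl' T) T := by
  have h1 := (hasDerivAt_id T).const_mul (-174 : ℝ)
  have h2 := (hasDerivAt_pow 2 T).const_mul (171 : ℝ)
  have h3 := (hasDerivAt_pow 3 T).const_mul (-74 : ℝ)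
  have h := (((h1.fun_add h2).fun_add h3).const_add (136 : ℝ)).div_const 1000
  have e : Prl = fun T => (136 + (-174 * id T + 171 * T ^ 2 + -74 * T ^ 3)) / 1000 := by
    funext T
    unfold Prl
    simp only [id_eq]
    ring
  rw [e]
  refine h.congr_deriv ?_
  unfold Prl'
  push_cast
  ring

lemma continuous_Prl : Continuous Prl := by
  unfold Prl
  fun_prop

/-- cubic factor -/
noncomputable def Pru (T : ℝ) : ℝ := (161 - 276 * T + 336 * T ^ 2 - 158 * T ^ 3) / 1000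

/-- derivative -/
noncomputable def Pru' (T : ℝ) : ℝ := (-276 + 672 * T - 474 * T ^ 2) / 1000

lemma hasDerivAt_Pru (T : ℝ) : HasDerivAt Pru (Pru' T) T := by
  have h1 := (hasDerivAt_id T).const_mul (-276 : ℝ)
  have h2 := (hasDerivAt_pow 2 T).const_mul (336 : ℝ)
  have h3 := (hasDerivAt_pow 3 T).const_mul (-158 : ℝ)
  have h := (((h1.fun_add h2).fun_add h3).const_add (161 : ℝ)).div_const 1000
  have e : Pru = fun T => (161 + (-276 * id T + 336 * T ^ 2 + -158 * T ^ 3)) / 1000 := by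
    funext T
    unfold Pru
    simp only [id_eq]
    ring
  rw [e]
  refine h.congr_deriv ?_
  unfold Pru'
  push_cast
  ring

lemma continuous_Pru : Continuous Pru := by
  unfold Pru
  fun_prop

lemma res_el_0 {T : ℝ} (h0 : 0 ≤ T) (h1 : T ≤ 1 / 4) :
    0 ≤ 3 / 2 - ((2 * 2 - 2) * (1 - T) + (2 * 2 + 2) * T) * Pel T + 2 * (1 - T) * T * Pel' T := by
  have u0 : 0 ≤ T - 0 := by linarith
  have w0 : 0 ≤ 1 / 4 - T := by linarith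
  have e : 3 / 2 - ((2 * 2 - 2) * (1 - T) + (2 * 2 + 2) * T) * Pel T + 2 * (1 - T) * T * Pel' T =
      1792 / 25 * (T - 0) ^ 0 * (1 / 4 - T) ^ 4 +
      3264 / 25 * (T - 0) ^ 1 * (1 / 4 - T) ^ 3 +
      10488 / 125 * (T - 0) ^ 2 * (1 / 4 - T) ^ 2 +
      3022 / 125 * (T - 0) ^ 3 * (1 / 4 - T) ^ 1 +
      1701 / 500 * (T - 0) ^ 4 * (1 / 4 - T) ^ 0 := by
    unfold Pel Pel'
    ring
  rw [e]
  positivity

lemma res_el_1 {T : ℝ} (h0 : 1 / 4 ≤ T) (h1 : T ≤ 1 / 2) :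
    0 ≤ 3 / 2 - ((2 * 2 - 2) * (1 - T) + (2 * 2 + 2) * T) * Pel T + 2 * (1 - T) * T * Pel' T := by
  have u0 : 0 ≤ T - 1 / 4 := by linarith
  have w0 : 0 ≤ 1 / 2 - T := by linarith
  have e : 3 / 2 - ((2 * 2 - 2) * (1 - T) + (2 * 2 + 2) * T) * Pel T + 2 * (1 - T) * T * Pel' T =
      1701 / 500 * (T - 1 / 4) ^ 0 * (1 / 2 - T) ^ 4 +
      76 / 25 * (T - 1 / 4) ^ 1 * (1 / 2 - T) ^ 3 +
      2562 / 125 * (T - 1 / 4) ^ 2 * (1 / 2 - T) ^ 2 +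
      2976 / 125 * (T - 1 / 4) ^ 3 * (1 / 2 - T) ^ 1 +
      36 / 5 * (T - 1 / 4) ^ 4 * (1 / 2 - T) ^ 0 := by
    unfold Pel Pel'
    ring
  rw [e]
  positivity

lemma res_el_2 {T : ℝ} (h0 : 1 / 2 ≤ T) (h1 : T ≤ 3 / 4) :
    0 ≤ 3 / 2 - ((2 * 2 - 2) * (1 - T) + (2 * 2 + 2) * T) * Pel T + 2 * (1 - T) * T * Pel' T := by
  have u0 : 0 ≤ T - 1 / 2 := by linarith
  have w0 : 0 ≤ 3 / 4 - T := by linarith
  have e : 3 / 2 - ((2 * 2 - 2) * (1 - T) + (2 * 2 + 2) * T) * Pel T + 2 * (1 - T) * T * Pel' T =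
      36 / 5 * (T - 1 / 2) ^ 0 * (3 / 4 - T) ^ 4 +
      4224 / 125 * (T - 1 / 2) ^ 1 * (3 / 4 - T) ^ 3 +
      6306 / 125 * (T - 1 / 2) ^ 2 * (3 / 4 - T) ^ 2 +
      2956 / 125 * (T - 1 / 2) ^ 3 * (3 / 4 - T) ^ 1 +
      2021 / 500 * (T - 1 / 2) ^ 4 * (3 / 4 - T) ^ 0 := by
    unfold Pel Pel'
    ring
  rw [e]
  positivity

lemma res_el_3 {T : ℝ} (h0 : 3 / 4 ≤ T) (h1 : T ≤ 1) :
    0 ≤ 3 / 2 - ((2 * 2 - 2) * (1 - T) + (2 * 2 + 2) * T) * Pel T + 2 * (1 - T) * T * Pel' T := by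
  have u0 : 0 ≤ T - 3 / 4 := by linarith
  have w0 : 0 ≤ 1 - T := by linarith
  have e : 3 / 2 - ((2 * 2 - 2) * (1 - T) + (2 * 2 + 2) * T) * Pel T + 2 * (1 - T) * T * Pel' T =
      2021 / 500 * (T - 3 / 4) ^ 0 * (1 - T) ^ 4 +
      1086 / 125 * (T - 3 / 4) ^ 1 * (1 - T) ^ 3 +
      696 / 125 * (T - 3 / 4) ^ 2 * (1 - T) ^ 2 +
      1696 / 125 * (T - 3 / 4) ^ 3 * (1 - T) ^ 1 +
      2112 / 125 * (T - 3 / 4) ^ 4 * (1 - T) ^ 0 := by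
    unfold Pel Pel'
    ring
  rw [e]
  positivity

lemma res_el {T : ℝ} (h0 : 0 ≤ T) (h1 : T ≤ 1) :
    0 ≤ 3 / 2 - ((2 * 2 - 2) * (1 - T) + (2 * 2 + 2) * T) * Pel T + 2 * (1 - T) * T * Pel' T := by
  rcases le_or_gt T (1 / 4) with t0 | g0
  · exact res_el_0 h0 t0
  rcases le_or_gt T (1 / 2) with t1 | g1
  · exact res_el_1 g0.le t1
  rcases le_or_gt T (3 / 4) with t2 | g2
  · exact res_el_2 g1.le t2
  exact res_el_3 g2.le h1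

lemma res_eu_0 {T : ℝ} (h0 : 0 ≤ T) (h1 : T ≤ 1 / 5) :
    0 ≤ ((2 * 2 - 2) * (1 - T) + (2 * 2 + 2) * T) * Peu T - 2 * (1 - T) * T * Peu' T - 3 / 2 := by
  have u0 : 0 ≤ T - 0 := by linarith
  have w0 : 0 ≤ 1 / 5 - T := by linarith
  have e : ((2 * 2 - 2) * (1 - T) + (2 * 2 + 2) * T) * Peu T - 2 * (1 - T) * T * Peu' T - 3 / 2 =
      5 * (T - 0) ^ 0 * (1 / 5 - T) ^ 4 +
      397 * (T - 0) ^ 1 * (1 / 5 - T) ^ 3 +
      16677 / 20 * (T - 0) ^ 2 * (1 / 5 - T) ^ 2 +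
      14728 / 25 * (T - 0) ^ 3 * (1 / 5 - T) ^ 1 +
      6943 / 50 * (T - 0) ^ 4 * (1 / 5 - T) ^ 0 := by
    unfold Peu Peu'
    ring
  rw [e]
  positivity

lemma res_eu_1 {T : ℝ} (h0 : 1 / 5 ≤ T) (h1 : T ≤ 2 / 5) :
    0 ≤ ((2 * 2 - 2) * (1 - T) + (2 * 2 + 2) * T) * Peu T - 2 * (1 - T) * T * Peu' T - 3 / 2 := by
  have u0 : 0 ≤ T - 1 / 5 := by linarith
  have w0 : 0 ≤ 2 / 5 - T := by linarith
  have e : ((2 * 2 - 2) * (1 - T) + (2 * 2 + 2) * T) * Peu T - 2 * (1 - T) * T * Peu' T - 3 / 2 =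
      6943 / 50 * (T - 1 / 5) ^ 0 * (2 / 5 - T) ^ 4 +
      13044 / 25 * (T - 1 / 5) ^ 1 * (2 / 5 - T) ^ 3 +
      63177 / 100 * (T - 1 / 5) ^ 2 * (2 / 5 - T) ^ 2 +
      7812 / 25 * (T - 1 / 5) ^ 3 * (2 / 5 - T) ^ 1 +
      276 / 5 * (T - 1 / 5) ^ 4 * (2 / 5 - T) ^ 0 := by
    unfold Peu Peu'
    ring
  rw [e]
  positivity

lemma res_eu_2 {T : ℝ} (h0 : 2 / 5 ≤ T) (h1 : T ≤ 3 / 5) :
    0 ≤ ((2 * 2 - 2) * (1 - T) + (2 * 2 + 2) * T) * Peu T - 2 * (1 - T) * T * Peu' T - 3 / 2 := by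
  have u0 : 0 ≤ T - 2 / 5 := by linarith
  have w0 : 0 ≤ 3 / 5 - T := by linarith
  have e : ((2 * 2 - 2) * (1 - T) + (2 * 2 + 2) * T) * Peu T - 2 * (1 - T) * T * Peu' T - 3 / 2 =
      276 / 5 * (T - 2 / 5) ^ 0 * (3 / 5 - T) ^ 4 +
      3228 / 25 * (T - 2 / 5) ^ 1 * (3 / 5 - T) ^ 3 +
      8169 / 100 * (T - 2 / 5) ^ 2 * (3 / 5 - T) ^ 2 +
      549 / 25 * (T - 2 / 5) ^ 3 * (3 / 5 - T) ^ 1 +
      289 / 50 * (T - 2 / 5) ^ 4 * (3 / 5 - T) ^ 0 := by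
    unfold Peu Peu'
    ring
  rw [e]
  positivity

lemma res_eu_3 {T : ℝ} (h0 : 3 / 5 ≤ T) (h1 : T ≤ 4 / 5) :
    0 ≤ ((2 * 2 - 2) * (1 - T) + (2 * 2 + 2) * T) * Peu T - 2 * (1 - T) * T * Peu' T - 3 / 2 := by
  have u0 : 0 ≤ T - 3 / 5 := by linarith
  have w0 : 0 ≤ 4 / 5 - T := by linarith
  have e : ((2 * 2 - 2) * (1 - T) + (2 * 2 + 2) * T) * Peu T - 2 * (1 - T) * T * Peu' T - 3 / 2 =
      289 / 50 * (T - 3 / 5) ^ 0 * (4 / 5 - T) ^ 4 +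
      607 / 25 * (T - 3 / 5) ^ 1 * (4 / 5 - T) ^ 3 +
      1773 / 20 * (T - 3 / 5) ^ 2 * (4 / 5 - T) ^ 2 +
      2977 / 25 * (T - 3 / 5) ^ 3 * (4 / 5 - T) ^ 1 +
      1013 / 25 * (T - 3 / 5) ^ 4 * (4 / 5 - T) ^ 0 := by
    unfold Peu Peu'
    ring
  rw [e]
  positivity

lemma res_eu_4 {T : ℝ} (h0 : 4 / 5 ≤ T) (h1 : T ≤ 1) :
    0 ≤ ((2 * 2 - 2) * (1 - T) + (2 * 2 + 2) * T) * Peu T - 2 * (1 - T) * T * Peu' T - 3 / 2 := by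
  have u0 : 0 ≤ T - 4 / 5 := by linarith
  have w0 : 0 ≤ 1 - T := by linarith
  have e : ((2 * 2 - 2) * (1 - T) + (2 * 2 + 2) * T) * Peu T - 2 * (1 - T) * T * Peu' T - 3 / 2 =
      1013 / 25 * (T - 4 / 5) ^ 0 * (1 - T) ^ 4 +
      5127 / 25 * (T - 4 / 5) ^ 1 * (1 - T) ^ 3 +
      6933 / 20 * (T - 4 / 5) ^ 2 * (1 - T) ^ 2 +
      198 * (T - 4 / 5) ^ 3 * (1 - T) ^ 1 +
      15 / 2 * (T - 4 / 5) ^ 4 * (1 - T) ^ 0 := by
    unfold Peu Peu'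
    ring
  rw [e]
  positivity

lemma res_eu {T : ℝ} (h0 : 0 ≤ T) (h1 : T ≤ 1) :
    0 ≤ ((2 * 2 - 2) * (1 - T) + (2 * 2 + 2) * T) * Peu T - 2 * (1 - T) * T * Peu' T - 3 / 2 := by
  rcases le_or_gt T (1 / 5) with t0 | g0
  · exact res_eu_0 h0 t0
  rcases le_or_gt T (2 / 5) with t1 | g1
  · exact res_eu_1 g0.le t1
  rcases le_or_gt T (3 / 5) with t2 | g2
  · exact res_eu_2 g1.le t2
  rcases le_or_gt T (4 / 5) with t3 | g3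
  · exact res_eu_3 g2.le t3
  exact res_eu_4 g3.le h1

lemma res_rl_0 {T : ℝ} (h0 : 0 ≤ T) (h1 : T ≤ 1 / 4) :
    0 ≤ Pel T - (1 + 2) * (1 + T) * Prl T + (1 - T ^ 2) * Prl' T + 2 * 1 * T * Prl T := by
  have u0 : 0 ≤ T - 0 := by linarith
  have w0 : 0 ≤ 1 / 4 - T := by linarith
  have e : Pel T - (1 + 2) * (1 + T) * Prl T + (1 - T ^ 2) * Prl' T + 2 * 1 * T * Prl T =
      896 / 125 * (T - 0) ^ 0 * (1 / 4 - T) ^ 4 +
      1872 / 125 * (T - 0) ^ 1 * (1 / 4 - T) ^ 3 +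
      1458 / 125 * (T - 0) ^ 2 * (1 / 4 - T) ^ 2 +
      526 / 125 * (T - 0) ^ 3 * (1 / 4 - T) ^ 1 +
      81 / 125 * (T - 0) ^ 4 * (1 / 4 - T) ^ 0 := by
    unfold Pel Prl Prl'
    ring
  rw [e]
  positivity

lemma res_rl_1 {T : ℝ} (h0 : 1 / 4 ≤ T) (h1 : T ≤ 1 / 2) :
    0 ≤ Pel T - (1 + 2) * (1 + T) * Prl T + (1 - T ^ 2) * Prl' T + 2 * 1 * T * Prl T := by
  have u0 : 0 ≤ T - 1 / 4 := by linarith
  have w0 : 0 ≤ 1 / 2 - T := by linarith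
  have e : Pel T - (1 + 2) * (1 + T) * Prl T + (1 - T ^ 2) * Prl' T + 2 * 1 * T * Prl T =
      81 / 125 * (T - 1 / 4) ^ 0 * (1 / 2 - T) ^ 4 +
      122 / 125 * (T - 1 / 4) ^ 1 * (1 / 2 - T) ^ 3 +
      246 / 125 * (T - 1 / 4) ^ 2 * (1 / 2 - T) ^ 2 +
      48 / 25 * (T - 1 / 4) ^ 3 * (1 / 2 - T) ^ 1 +
      72 / 125 * (T - 1 / 4) ^ 4 * (1 / 2 - T) ^ 0 := by
    unfold Pel Prl Prl'
    ring
  rw [e]
  positivity

lemma res_rl_2 {T : ℝ} (h0 : 1 / 2 ≤ T) (h1 : T ≤ 3 / 4) :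
    0 ≤ Pel T - (1 + 2) * (1 + T) * Prl T + (1 - T ^ 2) * Prl' T + 2 * 1 * T * Prl T := by
  have u0 : 0 ≤ T - 1 / 2 := by linarith
  have w0 : 0 ≤ 3 / 4 - T := by linarith
  have e : Pel T - (1 + 2) * (1 + T) * Prl T + (1 - T ^ 2) * Prl' T + 2 * 1 * T * Prl T =
      72 / 125 * (T - 1 / 2) ^ 0 * (3 / 4 - T) ^ 4 +
      336 / 125 * (T - 1 / 2) ^ 1 * (3 / 4 - T) ^ 3 +
      534 / 125 * (T - 1 / 2) ^ 2 * (3 / 4 - T) ^ 2 +
      286 / 125 * (T - 1 / 2) ^ 3 * (3 / 4 - T) ^ 1 +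
      53 / 125 * (T - 1 / 2) ^ 4 * (3 / 4 - T) ^ 0 := by
    unfold Pel Prl Prl'
    ring
  rw [e]
  positivity

lemma res_rl_3 {T : ℝ} (h0 : 3 / 4 ≤ T) (h1 : T ≤ 1) :
    0 ≤ Pel T - (1 + 2) * (1 + T) * Prl T + (1 - T ^ 2) * Prl' T + 2 * 1 * T * Prl T := by
  have u0 : 0 ≤ T - 3 / 4 := by linarith
  have w0 : 0 ≤ 1 - T := by linarith
  have e : Pel T - (1 + 2) * (1 + T) * Prl T + (1 - T ^ 2) * Prl' T + 2 * 1 * T * Prl T =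
      53 / 125 * (T - 3 / 4) ^ 0 * (1 - T) ^ 4 +
      138 / 125 * (T - 3 / 4) ^ 1 * (1 - T) ^ 3 +
      18 / 25 * (T - 3 / 4) ^ 2 * (1 - T) ^ 2 +
      64 / 125 * (T - 3 / 4) ^ 3 * (1 - T) ^ 1 +
      96 / 125 * (T - 3 / 4) ^ 4 * (1 - T) ^ 0 := by
    unfold Pel Prl Prl'
    ring
  rw [e]
  positivity

lemma res_rl {T : ℝ} (h0 : 0 ≤ T) (h1 : T ≤ 1) :
    0 ≤ Pel T - (1 + 2) * (1 + T) * Prl T + (1 - T ^ 2) * Prl' T + 2 * 1 * T * Prl T := by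
  rcases le_or_gt T (1 / 4) with t0 | g0
  · exact res_rl_0 h0 t0
  rcases le_or_gt T (1 / 2) with t1 | g1
  · exact res_rl_1 g0.le t1
  rcases le_or_gt T (3 / 4) with t2 | g2
  · exact res_rl_2 g1.le t2
  exact res_rl_3 g2.le h1

lemma res_ru_0 {T : ℝ} (h0 : 0 ≤ T) (h1 : T ≤ 1 / 3) :
    0 ≤ (1 + 2) * (1 + T) * Pru T - (1 - T ^ 2) * Pru' T - 2 * 1 * T * Pru T - Peu T := by
  have u0 : 0 ≤ T - 0 := by linarith
  have w0 : 0 ≤ 1 / 3 - T := by linarith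
  have e : (1 + 2) * (1 + T) * Pru T - (1 - T ^ 2) * Pru' T - 2 * 1 * T * Pru T - Peu T =
      81 / 200 * (T - 0) ^ 0 * (1 / 3 - T) ^ 4 +
      918 / 125 * (T - 0) ^ 1 * (1 / 3 - T) ^ 3 +
      5481 / 500 * (T - 0) ^ 2 * (1 / 3 - T) ^ 2 +
      5637 / 1000 * (T - 0) ^ 3 * (1 / 3 - T) ^ 1 +
      491 / 500 * (T - 0) ^ 4 * (1 / 3 - T) ^ 0 := by
    unfold Peu Pru Pru'
    ring
  rw [e]
  positivity

lemma res_ru_1 {T : ℝ} (h0 : 1 / 3 ≤ T) (h1 : T ≤ 2 / 3) :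
    0 ≤ (1 + 2) * (1 + T) * Pru T - (1 - T ^ 2) * Pru' T - 2 * 1 * T * Pru T - Peu T := by
  have u0 : 0 ≤ T - 1 / 3 := by linarith
  have w0 : 0 ≤ 2 / 3 - T := by linarith
  have e : (1 + 2) * (1 + T) * Pru T - (1 - T ^ 2) * Pru' T - 2 * 1 * T * Pru T - Peu T =
      491 / 500 * (T - 1 / 3) ^ 0 * (2 / 3 - T) ^ 4 +
      2219 / 1000 * (T - 1 / 3) ^ 1 * (2 / 3 - T) ^ 3 +
      177 / 250 * (T - 1 / 3) ^ 2 * (2 / 3 - T) ^ 2 +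
      71 / 250 * (T - 1 / 3) ^ 3 * (2 / 3 - T) ^ 1 +
      181 / 1000 * (T - 1 / 3) ^ 4 * (2 / 3 - T) ^ 0 := by
    unfold Peu Pru Pru'
    ring
  rw [e]
  positivity

lemma res_ru_2 {T : ℝ} (h0 : 2 / 3 ≤ T) (h1 : T ≤ 1) :
    0 ≤ (1 + 2) * (1 + T) * Pru T - (1 - T ^ 2) * Pru' T - 2 * 1 * T * Pru T - Peu T := by
  have u0 : 0 ≤ T - 2 / 3 := by linarith
  have w0 : 0 ≤ 1 - T := by linarith
  have e : (1 + 2) * (1 + T) * Pru T - (1 - T ^ 2) * Pru' T - 2 * 1 * T * Pru T - Peu T =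
      181 / 1000 * (T - 2 / 3) ^ 0 * (1 - T) ^ 4 +
      291 / 250 * (T - 2 / 3) ^ 1 * (1 - T) ^ 3 +
      837 / 250 * (T - 2 / 3) ^ 2 * (1 - T) ^ 2 +
      2997 / 1000 * (T - 2 / 3) ^ 3 * (1 - T) ^ 1 := by
    unfold Peu Pru Pru'
    ring
  rw [e]
  positivity

lemma res_ru {T : ℝ} (h0 : 0 ≤ T) (h1 : T ≤ 1) :
    0 ≤ (1 + 2) * (1 + T) * Pru T - (1 - T ^ 2) * Pru' T - 2 * 1 * T * Pru T - Peu T := by
  rcases le_or_gt T (1 / 3) with t0 | g0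
  · exact res_ru_0 h0 t0
  rcases le_or_gt T (2 / 3) with t1 | g1
  · exact res_ru_1 g0.le t1
  exact res_ru_2 g1.le h1

/-- **Bounds of `e`.** -/
theorem e4_lower {T : ℝ} (hT : T ∈ Ioo (0 : ℝ) 1) :
    T * (1 - T) ^ 3 * ((610 - 942 * T + 996 * T ^ 2 - 425 * T ^ 3) / 1000) ≤ e4 T := by
  have h := eB_le (a := 2) cert4 certLim4 continuous_Pel hasDerivAt_Pel (ζ := fun _ => 3 / 2)
    (fun T _ => le_of_eq (by unfold Z4; ring))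
    (fun T hT => by simpa using res_el hT.1.le hT.2.le) T hT
  simpa [eB, Pel] using h

theorem e4_upper {T : ℝ} (hT : T ∈ Ioo (0 : ℝ) 1) :
    e4 T ≤ T * (1 - T) ^ 3 * ((754 - 1551 * T + 1890 * T ^ 2 - 841 * T ^ 3) / 1000) := by
  have h := le_eB (a := 2) cert4 certLim4 continuous_Peu hasDerivAt_Peu (ζ := fun _ => 3 / 2)
    (fun T _ => le_of_eq (by unfold Z4; ring))
    (fun T hT => by simpa using res_eu hT.1.le hT.2.le) T hT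
  simpa [eB, Peu] using h

/-- **Bounds of `r`.** -/
theorem r4_lower {T : ℝ} (hT : T ∈ Ioo (0 : ℝ) 1) :
    (1 - T) ^ 3 * ((136 - 174 * T + 171 * T ^ 2 - 74 * T ^ 3) / 1000) ≤ r4 T := by
  have h := rB_le (b := 1) (P := Pel) cert4 certLim4 continuous_Prl hasDerivAt_Prl
    (fun T hT => eB_le (a := 2) cert4 certLim4 continuous_Pel hasDerivAt_Pel (ζ := fun _ => 3 / 2)
      (fun T _ => le_of_eq (by unfold Z4; ring))
      (fun T hT => by simpa using res_el hT.1.le hT.2.le) T hT)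
    (fun T hT => by simpa using res_rl hT.1.le hT.2.le) T hT
  simpa [rB, Prl] using h

theorem r4_upper {T : ℝ} (hT : T ∈ Ioo (0 : ℝ) 1) :
    r4 T ≤ (1 - T) ^ 3 * ((161 - 276 * T + 336 * T ^ 2 - 158 * T ^ 3) / 1000) := by
  have h := le_rB (b := 1) (P := Peu) cert4 certLim4 continuous_Pru hasDerivAt_Pru
    (fun T hT => le_eB (a := 2) cert4 certLim4 continuous_Peu hasDerivAt_Peu (ζ := fun _ => 3 / 2)
      (fun T _ => le_of_eq (by unfold Z4; ring))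
      (fun T hT => by simpa using res_eu hT.1.le hT.2.le) T hT)
    (fun T hT => by simpa using res_ru hT.1.le hT.2.le) T hT
  simpa [rB, Pru] using h

end Vale.Agent.P224.SMH
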