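import Vale.Agent.P224.SM2.Anti

/-!
The two point functional with a static part is nonincreasing.
-/

namespace Vale.Agent.P224.SMH

open MeasureTheory Set Filter Function Vale.Agent.P224.SM2
open scoped Topology RealInnerProductSpace

set_option linter.unusedSectionVars false

section

variable {X : Type*} [MeasurableSpace X] {E : Type*} [NormedAddCommGroup E]
  [InnerProductSpace ℝ E] [MeasurableSpace E] [BorelSpace E] [SecondCountableTopology E]
  {μ : Measure X} [IsFiniteMeasure μ] {m : ℕ} {p n : X → E} {y Z e r : ℝ → ℝ}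

/-- the admissible pair data -/
structure Adm (k : R4) : Prop where
  s : |k.1| ≤ 1
  c : |k.2.2.2| ≤ 1
  det : |k.1 - k.2.2.2| ≤ 1 - (k.1 * k.2.2.2 - k.2.2.1 * k.2.1)
  det2 : |k.1 + k.2.2.2| ≤ 1 + (k.1 * k.2.2.2 - k.2.2.1 * k.2.1)

lemma adm_pr (h : Two μ m p n) (q : X × X) : Adm (SM2.pr p n q) := by
  have b1 : (SM2.pr p n q).1 ^ 2 + (SM2.pr p n q).2.2.1 ^ 2 ≤ 1 := by
    have h5 := bessel (a := p q.2) (h.np _) (h.np q.1) (h.nn q.1) (h.pn _)
    rw [real_inner_comm, real_inner_comm (n q.1)] at h5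
    exact h5
  have b2 : (SM2.pr p n q).2.1 ^ 2 + (SM2.pr p n q).2.2.2 ^ 2 ≤ 1 := by
    have h5 := bessel (a := n q.2) (h.nn _) (h.np q.1) (h.nn q.1) (h.pn _)
    rw [real_inner_comm, real_inner_comm (n q.1)] at h5
    exact h5
  have b3 : (SM2.pr p n q).1 ^ 2 + (SM2.pr p n q).2.1 ^ 2 + (SM2.pr p n q).2.2.1 ^ 2
      + (SM2.pr p n q).2.2.2 ^ 2 ≤ 1 + ((SM2.pr p n q).1 * (SM2.pr p n q).2.2.2
        - (SM2.pr p n q).2.2.1 * (SM2.pr p n q).2.1) ^ 2 :=
    gram4 (h.np _) (h.nn _) (h.pn _) (h.np _) (h.nn _) (h.pn _)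
  refine ⟨abs_le.2 (h.pr_mem q).1, abs_le.2 (h.pr_mem q).2.2.2, det_bound b1 b2 b3, ?_⟩
  generalize SM2.pr p n q = k at b1 b2 b3
  have h6 := det_bound (s := k.1) (t := -k.2.1) (p := k.2.2.1) (c := -k.2.2.2) b1
    (by rw [neg_sq, neg_sq]; exact b2)
    (by
      have e1 : k.1 * -k.2.2.2 - k.2.2.1 * -k.2.1 = -(k.1 * k.2.2.2 - k.2.2.1 * k.2.1) := by ring
      rw [e1, neg_sq, neg_sq, neg_sq]
      exact b3)
  have e2 : k.1 - -k.2.2.2 = k.1 + k.2.2.2 := by ring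
  have e3 : 1 - (k.1 * -k.2.2.2 - k.2.2.1 * -k.2.1)
      = 1 + (k.1 * k.2.2.2 - k.2.2.1 * k.2.1) := by ring
  rwa [e2, e3] at h6

/-- a static part: its derivative in `T` is below the defect -/
structure Stat (m : ℕ) (y e r : ℝ → ℝ) (H H' : ℝ → R4 → ℝ) : Prop where
  meas : ∀ T, Measurable (H T)
  meas' : ∀ T, Measurable (H' T)
  cont : ContinuousOn (uncurry H) (Ico 0 1 ×ˢ KK)
  cont' : ContinuousOn (uncurry H') (Ioo 0 1 ×ˢ KK)
  deriv : ∀ T ∈ Ioo (0 : ℝ) 1, ∀ k ∈ KK, HasDerivAt (fun T => H T k) (H' T k) T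
  zero : ∀ k, H 0 k = 0
  le : ∀ T ∈ Ioo (0 : ℝ) 1, ∀ k, Adm k → H' T k ≤ FK m T (y T) (e T) (r T) k

/-- the functional with the static part is nonincreasing -/
theorem antitone_GH (h : Two μ m p n) (hm : 2 ≤ m) (hc : Cert m y Z e r) {H H' : ℝ → R4 → ℝ}
    (hH : Stat m y e r H H') :
    AntitoneOn (fun T => GG μ m p n y Z e r T + ∫ q, H T (SM2.pr p n q) ∂(μ.prod μ)) (Ico 0 1) := by
  have hmeas := h.measurable_pr
  have hcont : ContinuousOn (GG μ m p n y Z e r) (Ico 0 1) :=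
    contOn_param (μ.prod μ) hmeas isCompact_KK h.pr_mem (fun T => measurable_gK T) hc.contOn_gK
  have hcontH : ContinuousOn (fun T => ∫ q, H T (SM2.pr p n q) ∂(μ.prod μ)) (Ico 0 1) :=
    contOn_param (μ.prod μ) hmeas isCompact_KK h.pr_mem hH.meas hH.cont
  have hder : ∀ T ∈ Ioo (0 : ℝ) 1, HasDerivAt (GG μ m p n y Z e r)
      (∫ q, gK' m y Z e r T (SM2.pr p n q) ∂(μ.prod μ)) T := fun T hT =>
    deriv_param (μ.prod μ) hmeas isCompact_KK h.pr_mem (fun T => measurable_gK T)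
      (fun T => measurable_gK' T) hc.contOn_gK hc.contOn_gK'
      (fun T hT k hk => hc.hasDerivAt_gK (by omega) hT hk) hT
  have hderH : ∀ T ∈ Ioo (0 : ℝ) 1, HasDerivAt (fun T => ∫ q, H T (SM2.pr p n q) ∂(μ.prod μ))
      (∫ q, H' T (SM2.pr p n q) ∂(μ.prod μ)) T := fun T hT =>
    deriv_param (μ.prod μ) hmeas isCompact_KK h.pr_mem hH.meas hH.meas' hH.cont hH.cont'
      hH.deriv hT
  refine antitoneOn_of_deriv_nonpos (convex_Ico 0 1) (hcont.add hcontH) ?_ ?_
  · rw [interior_Ico]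
    exact fun T hT =>
      ((hder T hT).add (hderH T hT)).differentiableAt.differentiableWithinAt
  · rw [interior_Ico]
    intro T hT
    have hd := ((hder T hT).add (hderH T hT)).deriv
    have hd' : _root_.deriv (fun T => GG μ m p n y Z e r T + ∫ q, H T (SM2.pr p n q) ∂(μ.prod μ)) T
      = ∫ q, gK' m y Z e r T (SM2.pr p n q) ∂(μ.prod μ) + ∫ q, H' T (SM2.pr p n q) ∂(μ.prod μ) := hd
    rw [hd']
    have hT' : T ∈ Ico (0 : ℝ) 1 := ⟨hT.1.le, hT.2⟩
    obtain ⟨i1, e1⟩ := h.integral_RK hT (y T) (e T) (r T)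
    obtain ⟨i2, e2⟩ := h.integral_RK_sw hT (y T) (e T) (r T)
    have hk : 1 - T ^ 2 ≠ 0 := by
      have : 0 < 1 - T ^ 2 := by nlinarith [hT.1, hT.2]
      exact this.ne'
    have hm1 : (m : ℝ) - 1 ≠ 0 := by
      have : (2 : ℝ) ≤ m := by exact_mod_cast hm
      linarith
    have hv : ∀ q, 0 < 1 - T * (SM2.pr p n q).1 := fun q => one_sub_pos' hT' (h.pr_mem q).1.2
    have key : ∀ q, gK' m y Z e r T (SM2.pr p n q) = -(RK m T (y T) (e T) (r T) (SM2.pr p n q)
        + RK m T (y T) (e T) (r T) (sw (SM2.pr p n q))) / 2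
        - FK m T (y T) (e T) (r T) (SM2.pr p n q) := by
      intro q
      have h0 : ker T (m - 1) (SM2.pr p n q).1 = ker T m (SM2.pr p n q).1 * (1 - T * (SM2.pr p n q).1) := by
        have h1 := ker_succ_div T (SM2.pr p n q).1 (m - 1) 1
        rw [Nat.sub_add_cancel (by omega)] at h1
        rw [h1, pow_one, div_mul_cancel₀ _ (hv q).ne']
      have h1 := ker_succ_div T (SM2.pr p n q).1 m 1
      have h2 := ker_succ_div T (SM2.pr p n q).1 m 2
      have h3 := ker_succ_div T (SM2.pr p n q).1 m 3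
      rw [pow_one] at h1
      have hid := key_identity (m : ℝ) T (y T) (Z T) (e T) (r T) _ _ _ _ (SM2.pr p n q).1
        (SM2.pr p n q).2.1 (SM2.pr p n q).2.2.1 (SM2.pr p n q).2.2.2 (1 - T * (SM2.pr p n q).1)
        (ker T m (SM2.pr p n q).1) hT.1.ne' hk hm1 (hv q).ne' rfl rfl rfl rfl rfl
      unfold gK'
      rw [h0, h1, h2, h3, hid]
      unfold RK FK sw
      ring
    have iD : Integrable (fun q => gK' m y Z e r T (SM2.pr p n q)) (μ.prod μ) :=
      integrable_param (μ.prod μ) hmeas isCompact_KK h.pr_mem (measurable_gK' T)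
        (contOn_slice hc.contOn_gK' hT)
    have iH : Integrable (fun q => H' T (SM2.pr p n q)) (μ.prod μ) :=
      integrable_param (μ.prod μ) hmeas isCompact_KK h.pr_mem (hH.meas' T)
        (contOn_slice hH.cont' hT)
    rw [← integral_add iD iH]
    refine integral_nonpos_of i1 i2 (iD.add iH) e1 e2
      (C := fun q => FK m T (y T) (e T) (r T) (SM2.pr p n q) - H' T (SM2.pr p n q))
      (fun q => sub_nonneg.2 (hH.le T hT _ (adm_pr h q))) fun q => ?_
    rw [key q]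
    ring

end

end Vale.Agent.P224.SMH
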