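import Vale.Agent.P224.SMH.BdsGen

/-!
Bounds of the coefficient functions in dimension 10.
-/

namespace Vale.Agent.P224.SMH.B10

open Set Filter Function Real
open scoped Topology
open Vale.Agent.P224.SM2 Vale.Agent.P224.SMH
open Vale.Agent.P224.SH (pv pv')

/-- coefficients -/
def Lyl : List ℤ := [10797, 46905, 47988, 10232]

/-- coefficients -/
def Lyu : List ℤ := [11251, 46221, 47634, 10890]

/-- coefficients -/
def Lyu0 : List ℤ := [1125492, 4475752, 5989620, -4865336, 17114300, -28714224, 27741924, -14363056, 3093061]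

/-- coefficients -/
def Lzl : List ℤ := [10640, 60501, 50550, -5950]

/-- coefficients -/
def Lzu : List ℤ := [11262, 59160, 51549, -5859]

/-- coefficients -/
def Lzu0 : List ℤ := [1125604, 5623752, 7309848, -9321816, 22963290, -38383688, 38371536, -20786800, 4697201]

/-- coefficients -/
def Lel : List ℤ := [1329, 9156, -906, 56]

/-- coefficients -/
def Leu : List ℤ := [1409, 8949, -639, -33]

/-- coefficients -/
def Lrl : List ℤ := [512, 1743, 144, 7]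

/-- coefficients -/
def Lru : List ℤ := [523, 1725, 180, -4]

/-- coefficients -/
def Leu0 : List ℤ := [140715, 851608, 296464, -1545376, 4031650, -6602232, 6520836, -3529208, 802260]

/-- coefficients -/
def Lru0 : List ℤ := [51947, 170952, 34328, -77560, 212940, -373352, 398104, -232408, 56754]

theorem zl {y Z e r : ℝ → ℝ} {lam : ℝ} (hc : Cert 10 y Z e r)
    (hl : CertLim 10 y Z e r lam)
    (hyl : ∀ T ∈ Ioo (0 : ℝ) 1, (1 - T) ^ 4 * pd 10000 Lyl T ≤ y T) :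
    ∀ T ∈ Ioo (0 : ℝ) 1, (1 - T) ^ (4 + 1) * pd 10000 Lzl T ≤ Z T := by
  refine gen_zl (b := 4) hc hl (by norm_num) (hyl) ?_
  intro T hT
  have h := SH.Pv1.pv_nonneg (N := 3) (l := [785, -7479, 27789, -38040, 17850])
    (by norm_num) (by decide +kernel) ⟨hT.1.le, hT.2.le⟩
  refine h.trans (le_of_eq ?_)
  simp only [Lzl, Lyl, pv, pv']
  push_cast
  ring

theorem zu {y Z e r : ℝ → ℝ} {lam : ℝ} (hc : Cert 10 y Z e r)
    (hl : CertLim 10 y Z e r lam)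
    (hyu : ∀ T ∈ Ioo (0 : ℝ) 1, y T ≤ (1 - T) ^ 4 * pd 10000 Lyu T) :
    ∀ T ∈ Ioo (0 : ℝ) 1, Z T ≤ (1 - T) ^ (4 + 1) * pd 10000 Lzu T := by
  refine gen_zu (b := 4) hc hl (by norm_num) (hyu) ?_
  intro T hT
  have h := SH.Pv1.pv_nonneg (N := 2) (l := [55, 5535, -24363, 36930, -17577])
    (by norm_num) (by decide +kernel) ⟨hT.1.le, hT.2.le⟩
  refine h.trans (le_of_eq ?_)
  simp only [Lzu, Lyu, pv, pv']
  push_cast
  ring

theorem zu0 {y Z e r : ℝ → ℝ} {lam : ℝ} (hc : Cert 10 y Z e r)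
    (hl : CertLim 10 y Z e r lam)
    (hyu0 : ∀ T ∈ Ioo (0 : ℝ) 1, y T ≤ (1 - T) ^ 4 * pd 1000000 Lyu0 T) :
    ∀ T ∈ Ioo (0 : ℝ) 1, Z T ≤ (1 - T) ^ (4 + 1) * pd 1000000 Lzu0 T := by
  refine gen_zu (b := 4) hc hl (by norm_num) (hyu0) ?_
  intro T hT
  have h := SH.Pv1.pv_nonneg (N := 3) (l := [560, 116248, -2394804, 20302744, -90573658, 235424280, -368999596, 343618096, -175064508, 37577608])
    (by norm_num) (by decide +kernel) ⟨hT.1.le, hT.2.le⟩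
  refine h.trans (le_of_eq ?_)
  simp only [Lzu0, Lyu0, pv, pv']
  push_cast
  ring

theorem el {y Z e r : ℝ → ℝ} {lam : ℝ} (hc : Cert 10 y Z e r)
    (hl : CertLim 10 y Z e r lam)
    (hyl : ∀ T ∈ Ioo (0 : ℝ) 1, (1 - T) ^ 4 * pd 10000 Lyl T ≤ y T) :
    ∀ T ∈ Ioo (0 : ℝ) 1, T * (1 - T) ^ (4 + 2) * pd 10000 Lel T ≤ e T := by
  refine gen_el (b := 4) hc hl (by norm_num) (zl hc hl hyl) ?_
  intro T hT
  have h := SH.Pv1.pv_nonneg (N := 1) (l := [8, 249, -762, 1186, -560])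
    (by norm_num) (by decide +kernel) ⟨hT.1.le, hT.2.le⟩
  refine h.trans (le_of_eq ?_)
  simp only [Lel, Lzl, pv, pv']
  push_cast
  ring

theorem eu {y Z e r : ℝ → ℝ} {lam : ℝ} (hc : Cert 10 y Z e r)
    (hl : CertLim 10 y Z e r lam)
    (hyu : ∀ T ∈ Ioo (0 : ℝ) 1, y T ≤ (1 - T) ^ 4 * pd 10000 Lyu T) :
    ∀ T ∈ Ioo (0 : ℝ) 1, e T ≤ T * (1 - T) ^ (4 + 2) * pd 10000 Leu T := by
  refine gen_eu (b := 4) hc hl (by norm_num) (zu hc hl hyu) ?_
  intro T hT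
  have h := SH.Pv1.pv_nonneg (N := 1) (l := [10, 170, -411, 681, -330])
    (by norm_num) (by decide +kernel) ⟨hT.1.le, hT.2.le⟩
  refine h.trans (le_of_eq ?_)
  simp only [Leu, Lzu, pv, pv']
  push_cast
  ring

theorem eu0 {y Z e r : ℝ → ℝ} {lam : ℝ} (hc : Cert 10 y Z e r)
    (hl : CertLim 10 y Z e r lam)
    (hyu0 : ∀ T ∈ Ioo (0 : ℝ) 1, y T ≤ (1 - T) ^ 4 * pd 1000000 Lyu0 T) :
    ∀ T ∈ Ioo (0 : ℝ) 1, e T ≤ T * (1 - T) ^ (4 + 2) * pd 1000000 Leu0 T := by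
  refine gen_eu (b := 4) hc hl (by norm_num) (zu0 hc hl hyu0) ?_
  intro T hT
  have h := SH.Pv1.pv_nonneg (N := 4) (l := [116, 48756, -1014344, 8602776, -38417050, 99967952, -156886128, 146295424, -74641025, 16045200])
    (by norm_num) (by decide +kernel) ⟨hT.1.le, hT.2.le⟩
  refine h.trans (le_of_eq ?_)
  simp only [Leu0, Lzu0, pv, pv']
  push_cast
  ring

theorem rl {y Z e r : ℝ → ℝ} {lam : ℝ} (hc : Cert 10 y Z e r)
    (hl : CertLim 10 y Z e r lam)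
    (hyl : ∀ T ∈ Ioo (0 : ℝ) 1, (1 - T) ^ 4 * pd 10000 Lyl T ≤ y T) :
    ∀ T ∈ Ioo (0 : ℝ) 1, (1 - T) ^ (4 + 2) * pd 10000 Lrl T ≤ r T := by
  refine gen_rl (b := 4) hc hl (by norm_num) (el hc hl hyl) ?_
  intro T hT
  have h := SH.Pv1.pv_nonneg (N := 1) (l := [0, 10, -6, 14, -7])
    (by norm_num) (by decide +kernel) ⟨hT.1.le, hT.2.le⟩
  refine h.trans (le_of_eq ?_)
  simp only [Lrl, Lel, pv, pv']
  push_cast
  ring

theorem ru {y Z e r : ℝ → ℝ} {lam : ℝ} (hc : Cert 10 y Z e r)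
    (hl : CertLim 10 y Z e r lam)
    (hyu : ∀ T ∈ Ioo (0 : ℝ) 1, y T ≤ (1 - T) ^ 4 * pd 10000 Lyu T) :
    ∀ T ∈ Ioo (0 : ℝ) 1, r T ≤ (1 - T) ^ (4 + 2) * pd 10000 Lru T := by
  refine gen_ru (b := 4) hc hl (by norm_num) (eu hc hl hyu) ?_
  intro T hT
  have h := SH.Pv1.pv_nonneg (N := 1) (l := [4, -5, 6, 9, -4])
    (by norm_num) (by decide +kernel) ⟨hT.1.le, hT.2.le⟩
  refine h.trans (le_of_eq ?_)
  simp only [Lru, Leu, pv, pv']
  push_cast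
  ring

theorem ru0 {y Z e r : ℝ → ℝ} {lam : ℝ} (hc : Cert 10 y Z e r)
    (hl : CertLim 10 y Z e r lam)
    (hyu0 : ∀ T ∈ Ioo (0 : ℝ) 1, y T ≤ (1 - T) ^ 4 * pd 1000000 Lyu0 T) :
    ∀ T ∈ Ioo (0 : ℝ) 1, r T ≤ (1 - T) ^ (4 + 2) * pd 1000000 Lru0 T := by
  refine gen_ru (b := 4) hc hl (by norm_num) (eu0 hc hl hyu0) ?_
  intro T hT
  have h := SH.Pv1.pv_nonneg (N := 3) (l := [15, 1554, -28768, 228256, -964810, 2399376, -3625412, 3273144, -1623776, 340524])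
    (by norm_num) (by decide +kernel) ⟨hT.1.le, hT.2.le⟩
  refine h.trans (le_of_eq ?_)
  simp only [Lru0, Leu0, pv, pv']
  push_cast
  ring

/-- the value of `r` at zero -/
theorem r_zero {y Z e r : ℝ → ℝ} {lam : ℝ} (hc : Cert 10 y Z e r)
    (hl : CertLim 10 y Z e r lam)
    (hyu0 : ∀ T ∈ Ioo (0 : ℝ) 1, y T ≤ (1 - T) ^ 4 * pd 1000000 Lyu0 T) :
    10 * r 0 ≤ 51947 / 100000 := by
  have h := r_zero_le (P := fun T => (1 - T) ^ (4 + 2) * pd 1000000 Lru0 T) hc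
    (by
      have := continuous_pd 1000000 Lru0
      fun_prop) (ru0 hc hl hyu0)
  have e : (1 - (0 : ℝ)) ^ (4 + 2) * pd 1000000 Lru0 0 = 51947 / 1000000 := by
    simp only [pd, Lru0, pv]
    push_cast
    norm_num

  rw [e] at h
  linarith

end Vale.Agent.P224.SMH.B10
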