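import Vale.Agent.P224.SMH.BdsGen

/-!
Bounds of the coefficient functions in dimension 12.
-/

namespace Vale.Agent.P224.SMH.B12

open Set Filter Function Real
open scoped Topology
open Vale.Agent.P224.SM2 Vale.Agent.P224.SMH
open Vale.Agent.P224.SH (pv pv')

/-- `Z / (1 - T) ^ 6` times 100000 -/
def Lz : List ℤ := [110000, 660000, 1320000, 220000]

/-- `Z / (1 - T) ^ 6` times 10000000 -/
def Lz0 : List ℤ := [11000000, 66000000, 132000000, 22000000]

/-- coefficients -/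
def Lel : List ℤ := [10260, 87000, 85950, -18650]

/-- coefficients -/
def Leu : List ℤ := [11010, 84420, 89820, -20090]

/-- coefficients -/
def Lrl : List ℤ := [4220, 19290, 17730, -140]

/-- coefficients -/
def Lru : List ℤ := [4310, 19110, 18180, -270]

/-- coefficients -/
def Leu0 : List ℤ := [1100110, 7764000, 13094100, -11644200, 10907100, -6317460, 1598910]

/-- coefficients -/
def Lru0 : List ℤ := [426360, 1884240, 2067150, -748000, 898800, -551640, 149170]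

lemma zX {y Z e r : ℝ → ℝ} {lam : ℝ} (hc : Cert 12 y Z e r)
    (hl : CertLim 12 y Z e r lam) (h0 : y 0 = 11 / 10) :
    ∀ T ∈ Ioo (0 : ℝ) 1, Z T = (1 - T) ^ (5 + 1) * pd 100000 Lz T := by
  intro T hT
  rw [(yZ12 hc hl h0 hT).2]
  simp only [pd, Lz, pv, Q12]
  push_cast
  ring

lemma zX0 {y Z e r : ℝ → ℝ} {lam : ℝ} (hc : Cert 12 y Z e r)
    (hl : CertLim 12 y Z e r lam) (h0 : y 0 = 11 / 10) :
    ∀ T ∈ Ioo (0 : ℝ) 1, Z T = (1 - T) ^ (5 + 1) * pd 10000000 Lz0 T := by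
  intro T hT
  rw [(yZ12 hc hl h0 hT).2]
  simp only [pd, Lz0, pv, Q12]
  push_cast
  ring

theorem el {y Z e r : ℝ → ℝ} {lam : ℝ} (hc : Cert 12 y Z e r)
    (hl : CertLim 12 y Z e r lam) (h0 : y 0 = 11 / 10) :
    ∀ T ∈ Ioo (0 : ℝ) 1, T * (1 - T) ^ (5 + 2) * pd 100000 Lel T ≤ e T := by
  refine gen_el (b := 5) hc hl (by norm_num) (fun T hT => (zX hc hl h0 T hT).ge) ?_
  intro T hT
  have h := SH.Pv1.pv_nonneg (N := 4) (l := [7400, -77040, 282300, -393000, 186500])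
    (by norm_num) (by decide +kernel) ⟨hT.1.le, hT.2.le⟩
  refine h.trans (le_of_eq ?_)
  simp only [Lel, Lz, pv, pv']
  push_cast
  ring

theorem eu {y Z e r : ℝ → ℝ} {lam : ℝ} (hc : Cert 12 y Z e r)
    (hl : CertLim 12 y Z e r lam) (h0 : y 0 = 11 / 10) :
    ∀ T ∈ Ioo (0 : ℝ) 1, e T ≤ T * (1 - T) ^ (5 + 2) * pd 100000 Leu T := by
  refine gen_eu (b := 5) hc hl (by norm_num) (fun T hT => (zX hc hl h0 T hT).le) ?_
  intro T hT
  have h := SH.Pv1.pv_nonneg (N := 2) (l := [100, 59400, -274560, 418200, -200900])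
    (by norm_num) (by decide +kernel) ⟨hT.1.le, hT.2.le⟩
  refine h.trans (le_of_eq ?_)
  simp only [Leu, Lz, pv, pv']
  push_cast
  ring

theorem eu0 {y Z e r : ℝ → ℝ} {lam : ℝ} (hc : Cert 12 y Z e r)
    (hl : CertLim 12 y Z e r lam) (h0 : y 0 = 11 / 10) :
    ∀ T ∈ Ioo (0 : ℝ) 1, e T ≤ T * (1 - T) ^ (5 + 2) * pd 10000000 Leu0 T := by
  refine gen_eu (b := 5) hc hl (by norm_num) (fun T hT => (zX0 hc hl h0 T hT).le) ?_
  intro T hT
  have h := SH.Pv1.pv_nonneg (N := 3) (l := [1100, 512440, -6851400, 36176000, -94627800, 130885200, -91642260, 25582560])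
    (by norm_num) (by decide +kernel) ⟨hT.1.le, hT.2.le⟩
  refine h.trans (le_of_eq ?_)
  simp only [Leu0, Lz0, pv, pv']
  push_cast
  ring

theorem rl {y Z e r : ℝ → ℝ} {lam : ℝ} (hc : Cert 12 y Z e r)
    (hl : CertLim 12 y Z e r lam) (h0 : y 0 = 11 / 10) :
    ∀ T ∈ Ioo (0 : ℝ) 1, (1 - T) ^ (5 + 2) * pd 100000 Lrl T ≤ r T := by
  refine gen_rl (b := 5) hc hl (by norm_num) (el hc hl h0) ?_
  intro T hT
  have h := SH.Pv1.pv_nonneg (N := 1) (l := [10, 90, 0, 60])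
    (by norm_num) (by decide +kernel) ⟨hT.1.le, hT.2.le⟩
  refine h.trans (le_of_eq ?_)
  simp only [Lrl, Lel, pv, pv']
  push_cast
  ring

theorem ru {y Z e r : ℝ → ℝ} {lam : ℝ} (hc : Cert 12 y Z e r)
    (hl : CertLim 12 y Z e r lam) (h0 : y 0 = 11 / 10) :
    ∀ T ∈ Ioo (0 : ℝ) 1, r T ≤ (1 - T) ^ (5 + 2) * pd 100000 Lru T := by
  refine gen_ru (b := 5) hc hl (by norm_num) (eu hc hl h0) ?_
  intro T hT
  have h := SH.Pv1.pv_nonneg (N := 1) (l := [50, 60, 30, 20])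
    (by norm_num) (by decide +kernel) ⟨hT.1.le, hT.2.le⟩
  refine h.trans (le_of_eq ?_)
  simp only [Lru, Leu, pv, pv']
  push_cast
  ring

theorem ru0 {y Z e r : ℝ → ℝ} {lam : ℝ} (hc : Cert 12 y Z e r)
    (hl : CertLim 12 y Z e r lam) (h0 : y 0 = 11 / 10) :
    ∀ T ∈ Ioo (0 : ℝ) 1, r T ≤ (1 - T) ^ (5 + 2) * pd 10000000 Lru0 T := by
  refine gen_ru (b := 5) hc hl (by norm_num) (eu0 hc hl h0) ?_
  intro T hT
  have h := SH.Pv1.pv_nonneg (N := 2) (l := [170, 12300, -148530, 745850, -1857300, 2459760, -1658000, 447510])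
    (by norm_num) (by decide +kernel) ⟨hT.1.le, hT.2.le⟩
  refine h.trans (le_of_eq ?_)
  simp only [Lru0, Leu0, pv, pv']
  push_cast
  ring

/-- the value of `r` at zero -/
theorem r_zero {y Z e r : ℝ → ℝ} {lam : ℝ} (hc : Cert 12 y Z e r)
    (hl : CertLim 12 y Z e r lam) (h0 : y 0 = 11 / 10) :
    12 * r 0 ≤ 31977 / 62500 := by
  have h := r_zero_le (P := fun T => (1 - T) ^ (5 + 2) * pd 10000000 Lru0 T) hc
    (by
      have := continuous_pd 10000000 Lru0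
      fun_prop) (ru0 hc hl h0)
  have e : (1 - (0 : ℝ)) ^ (5 + 2) * pd 10000000 Lru0 0 = 10659 / 250000 := by
    simp only [pd, Lru0, pv]
    push_cast
    norm_num

  rw [e] at h
  linarith

end Vale.Agent.P224.SMH.B12
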