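import Vale.Agent.P224.SMH.BdsGen

/-!
Bounds of the coefficient functions in dimension 14.
-/

namespace Vale.Agent.P224.SMH.B14

open Set Filter Function Real
open scoped Topology
open Vale.Agent.P224.SM2 Vale.Agent.P224.SMH
open Vale.Agent.P224.SH (pv pv')

/-- coefficients -/
def Lyl : List ℤ := [107382, 627796, 1675488, 1254652, 940064]

/-- coefficients -/
def Lyu : List ℤ := [108876, 639064, 1623174, 1321864, 914027]

/-- coefficients -/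
def Lyu0 : List ℤ := [1085632, 6429552, 16162605, 12747100, 11036295, -2386266, 995247]

/-- coefficients -/
def Lzl : List ℤ := [106159, 751836, 2061948, 1538904, 141929]

/-- coefficients -/
def Lzu : List ℤ := [108985, 755896, 2037828, 1581996, 127416]

/-- coefficients -/
def Lzu0 : List ℤ := [1085740, 7520022, 20825325, 13907400, 4750620, -2994870, 980969]

/-- coefficients -/
def Lel : List ℤ := [8801, 72256, 198810, 4828, 2566]

/-- coefficients -/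
def Leu : List ℤ := [9091, 72264, 198606, 6860, 1734]

/-- coefficients -/
def Lrl : List ℤ := [3582, 19864, 36204, 10460, 1633]

/-- coefficients -/
def Lru : List ℤ := [3631, 19944, 36354, 10724, 1558]

/-- coefficients -/
def Leu0 : List ℤ := [90487, 718218, 2024760, -97980, 311475, -244056, 77126]

/-- coefficients -/
def Lru0 : List ℤ := [36179, 198930, 364080, 98260, 33990, -17514, 6155]

theorem zl {y Z e r : ℝ → ℝ} {lam : ℝ} (hc : Cert 14 y Z e r)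
    (hl : CertLim 14 y Z e r lam)
    (hyl : ∀ T ∈ Ioo (0 : ℝ) 1, (1 - T) ^ 6 * pd 100000 Lyl T ≤ y T) :
    ∀ T ∈ Ioo (0 : ℝ) 1, (1 - T) ^ (6 + 1) * pd 100000 Lzl T ≤ Z T := by
  refine gen_zl (b := 6) hc hl (by norm_num) (hyl) ?_
  intro T hT
  have h := SH.Pv1.pv_nonneg (N := 3) (l := [8561, -116444, 666840, -1496948, 1537949, -567716])
    (by norm_num) (by decide +kernel) ⟨hT.1.le, hT.2.le⟩
  refine h.trans (le_of_eq ?_)
  simp only [Lzl, Lyl, pv, pv']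
  push_cast
  ring

theorem zu {y Z e r : ℝ → ℝ} {lam : ℝ} (hc : Cert 14 y Z e r)
    (hl : CertLim 14 y Z e r lam)
    (hyu : ∀ T ∈ Ioo (0 : ℝ) 1, y T ≤ (1 - T) ^ 6 * pd 100000 Lyu T) :
    ∀ T ∈ Ioo (0 : ℝ) 1, Z T ≤ (1 - T) ^ (6 + 1) * pd 100000 Lzu T := by
  refine gen_zu (b := 6) hc hl (by norm_num) (hyu) ?_
  intro T hT
  have h := SH.Pv1.pv_nonneg (N := 2) (l := [763, 61928, -417182, 1150592, -1269953, 509664])
    (by norm_num) (by decide +kernel) ⟨hT.1.le, hT.2.le⟩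
  refine h.trans (le_of_eq ?_)
  simp only [Lzu, Lyu, pv, pv']
  push_cast
  ring

theorem zu0 {y Z e r : ℝ → ℝ} {lam : ℝ} (hc : Cert 14 y Z e r)
    (hl : CertLim 14 y Z e r lam)
    (hyu0 : ∀ T ∈ Ioo (0 : ℝ) 1, y T ≤ (1 - T) ^ 6 * pd 1000000 Lyu0 T) :
    ∀ T ∈ Ioo (0 : ℝ) 1, Z T ≤ (1 - T) ^ (6 + 1) * pd 1000000 Lzu0 T := by
  refine gen_zu (b := 6) hc hl (by norm_num) (hyu0) ?_
  intro T hT
  have h := SH.Pv1.pv_nonneg (N := 3) (l := [756, 113268, -1491588, 8050550, -21280005, 29716602,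
      -20960110, 5885814])
    (by norm_num) (by decide +kernel) ⟨hT.1.le, hT.2.le⟩
  refine h.trans (le_of_eq ?_)
  simp only [Lzu0, Lyu0, pv, pv']
  push_cast
  ring

theorem el {y Z e r : ℝ → ℝ} {lam : ℝ} (hc : Cert 14 y Z e r)
    (hl : CertLim 14 y Z e r lam)
    (hyl : ∀ T ∈ Ioo (0 : ℝ) 1, (1 - T) ^ 6 * pd 100000 Lyl T ≤ y T) :
    ∀ T ∈ Ioo (0 : ℝ) 1, T * (1 - T) ^ (6 + 2) * pd 100000 Lel T ≤ e T := by
  refine gen_el (b := 6) hc hl (by norm_num) (zl hc hl hyl) ?_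
  intro T hT
  have h := SH.Pv1.pv_nonneg (N := 3) (l := [547, -5928, 37932, -80544, 83385, -30792])
    (by norm_num) (by decide +kernel) ⟨hT.1.le, hT.2.le⟩
  refine h.trans (le_of_eq ?_)
  simp only [Lel, Lzl, pv, pv']
  push_cast
  ring

theorem eu {y Z e r : ℝ → ℝ} {lam : ℝ} (hc : Cert 14 y Z e r)
    (hl : CertLim 14 y Z e r lam)
    (hyu : ∀ T ∈ Ioo (0 : ℝ) 1, y T ≤ (1 - T) ^ 6 * pd 100000 Lyu T) :
    ∀ T ∈ Ioo (0 : ℝ) 1, e T ≤ T * (1 - T) ^ (6 + 2) * pd 100000 Leu T := by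
  refine gen_eu (b := 6) hc hl (by norm_num) (zu hc hl hyu) ?_
  intro T hT
  have h := SH.Pv1.pv_nonneg (N := 2) (l := [107, 3108, -15396, 48012, -51880, 20808])
    (by norm_num) (by decide +kernel) ⟨hT.1.le, hT.2.le⟩
  refine h.trans (le_of_eq ?_)
  simp only [Leu, Lzu, pv, pv']
  push_cast
  ring

theorem eu0 {y Z e r : ℝ → ℝ} {lam : ℝ} (hc : Cert 14 y Z e r)
    (hl : CertLim 14 y Z e r lam)
    (hyu0 : ∀ T ∈ Ioo (0 : ℝ) 1, y T ≤ (1 - T) ^ 6 * pd 1000000 Lyu0 T) :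
    ∀ T ∈ Ioo (0 : ℝ) 1, e T ≤ T * (1 - T) ^ (6 + 2) * pd 1000000 Leu0 T := by
  refine gen_eu (b := 6) hc hl (by norm_num) (zu0 hc hl hyu0) ?_
  intro T hT
  have h := SH.Pv1.pv_nonneg (N := 3) (l := [104, 24106, -317937, 1702800, -4484520, 6244458,
      -4397753, 1234016])
    (by norm_num) (by decide +kernel) ⟨hT.1.le, hT.2.le⟩
  refine h.trans (le_of_eq ?_)
  simp only [Leu0, Lzu0, pv, pv']
  push_cast
  ring

theorem rl {y Z e r : ℝ → ℝ} {lam : ℝ} (hc : Cert 14 y Z e r)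
    (hl : CertLim 14 y Z e r lam)
    (hyl : ∀ T ∈ Ioo (0 : ℝ) 1, (1 - T) ^ 6 * pd 100000 Lyl T ≤ y T) :
    ∀ T ∈ Ioo (0 : ℝ) 1, (1 - T) ^ (6 + 2) * pd 100000 Lrl T ≤ r T := by
  refine gen_rl (b := 6) hc hl (by norm_num) (el hc hl hyl) ?_
  intro T hT
  have h := SH.Pv1.pv_nonneg (N := 1) (l := [9, 80, 150, 88, -38])
    (by norm_num) (by decide +kernel) ⟨hT.1.le, hT.2.le⟩
  refine h.trans (le_of_eq ?_)
  simp only [Lrl, Lel, pv, pv']
  push_cast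
  ring

theorem ru {y Z e r : ℝ → ℝ} {lam : ℝ} (hc : Cert 14 y Z e r)
    (hl : CertLim 14 y Z e r lam)
    (hyu : ∀ T ∈ Ioo (0 : ℝ) 1, y T ≤ (1 - T) ^ 6 * pd 100000 Lyu T) :
    ∀ T ∈ Ioo (0 : ℝ) 1, r T ≤ (1 - T) ^ (6 + 2) * pd 100000 Lru T := by
  refine gen_ru (b := 6) hc hl (by norm_num) (eu hc hl hyu) ?_
  intro T hT
  have h := SH.Pv1.pv_nonneg (N := 1) (l := [13, 56, 222, -8, 6])
    (by norm_num) (by decide +kernel) ⟨hT.1.le, hT.2.le⟩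
  refine h.trans (le_of_eq ?_)
  simp only [Lru, Leu, pv, pv']
  push_cast
  ring

theorem ru0 {y Z e r : ℝ → ℝ} {lam : ℝ} (hc : Cert 14 y Z e r)
    (hl : CertLim 14 y Z e r lam)
    (hyu0 : ∀ T ∈ Ioo (0 : ℝ) 1, y T ≤ (1 - T) ^ 6 * pd 1000000 Lyu0 T) :
    ∀ T ∈ Ioo (0 : ℝ) 1, r T ≤ (1 - T) ^ (6 + 2) * pd 1000000 Lru0 T := by
  refine gen_ru (b := 6) hc hl (by norm_num) (eu0 hc hl hyu0) ?_
  intro T hT
  have h := SH.Pv1.pv_nonneg (N := 2) (l := [15, 346, -3690, 19940, -50245, 67014, -45400, 12310])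
    (by norm_num) (by decide +kernel) ⟨hT.1.le, hT.2.le⟩
  refine h.trans (le_of_eq ?_)
  simp only [Lru0, Leu0, pv, pv']
  push_cast
  ring

/-- the value of `r` at zero -/
theorem r_zero {y Z e r : ℝ → ℝ} {lam : ℝ} (hc : Cert 14 y Z e r)
    (hl : CertLim 14 y Z e r lam)
    (hyu0 : ∀ T ∈ Ioo (0 : ℝ) 1, y T ≤ (1 - T) ^ 6 * pd 1000000 Lyu0 T) :
    14 * r 0 ≤ 253253/500000 := by
  have h := r_zero_le (P := fun T => (1 - T) ^ (6 + 2) * pd 1000000 Lru0 T) hc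
    (by
      have := continuous_pd 1000000 Lru0
      fun_prop) (ru0 hc hl hyu0)
  have e : (1 - (0 : ℝ)) ^ (6 + 2) * pd 1000000 Lru0 0 = 36179/1000000 := by
    simp only [pd, Lru0, pv]
    push_cast
    norm_num
  rw [e] at h
  linarith

end Vale.Agent.P224.SMH.B14
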