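import Vale.Agent.P224.SMH.Uniq

/-!
The functions `y`, `Z` in dimension sixteen.
-/

namespace Vale.Agent.P224.SMH

open Set Filter Function Real
open scoped Topology
open Vale.Agent.P224.SM2

/-- dimension sixteen: `y = (1 - T) ^ 7 P16` -/
noncomputable def P16 (T : ℝ) : ℝ :=
  (15 + 105 * T + 303 * T ^ 2 + 441 * T ^ 3 + 303 * T ^ 4 + 105 * T ^ 5 + 15 * T ^ 6) / 14

/-- dimension sixteen: `Z = (1 - T) ^ 8 Q16` -/
noncomputable def Q16 (T : ℝ) : ℝ :=
  (15 + 120 * T + 384 * T ^ 2 + 552 * T ^ 3 + 192 * T ^ 4 + 24 * T ^ 5) / 14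

theorem yZ16 {y Z e r : ℝ → ℝ} {lam : ℝ} (hc : Cert 16 y Z e r) (hl : CertLim 16 y Z e r lam)
    (h0 : y 0 = 15 / 14) {T : ℝ} (hT : T ∈ Ioo (0 : ℝ) 1) :
    y T = (1 - T) ^ 7 * P16 T ∧ Z T = (1 - T) ^ 8 * Q16 T := by
  refine cert_uniq (b := 7) (by norm_num) hc hl (P := P16) (Q := Q16) (by unfold P16; fun_prop)
    (by unfold Q16; fun_prop) (fun T hT => by
      unfold P16
      have := hT.1
      positivity) (by rw [h0]; unfold P16; norm_num) ?_ ?_ T hT
  · intro T hT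
    have h1 : HasDerivAt Q16
        ((120 + 768 * T + 1656 * T ^ 2 + 768 * T ^ 3 + 120 * T ^ 4) / 14) T := by
      have h := (((((((hasDerivAt_id T).const_mul (120 : ℝ)).const_add 15).fun_add
        ((hasDerivAt_pow 2 T).const_mul (384 : ℝ))).fun_add
        ((hasDerivAt_pow 3 T).const_mul (552 : ℝ))).fun_add
        ((hasDerivAt_pow 4 T).const_mul (192 : ℝ))).fun_add
        ((hasDerivAt_pow 5 T).const_mul (24 : ℝ))).div_const 14
      refine h.congr_deriv ?_
      push_cast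
      ring
    refine (hasDerivAt_rB (a := 7) (P' := fun T =>
      (120 + 768 * T + 1656 * T ^ 2 + 768 * T ^ 3 + 120 * T ^ 4) / 14) h1).congr_deriv ?_
    have hT0 : T ≠ 0 := hT.1.ne'
    unfold rB Q16 P16
    push_cast
    field_simp
    ring
  · intro T hT
    have h1 : HasDerivAt P16
        ((105 + 606 * T + 1323 * T ^ 2 + 1212 * T ^ 3 + 525 * T ^ 4 + 90 * T ^ 5) / 14) T := by
      have h := ((((((((hasDerivAt_id T).const_mul (105 : ℝ)).const_add 15).fun_add
        ((hasDerivAt_pow 2 T).const_mul (303 : ℝ))).fun_add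
        ((hasDerivAt_pow 3 T).const_mul (441 : ℝ))).fun_add
        ((hasDerivAt_pow 4 T).const_mul (303 : ℝ))).fun_add
        ((hasDerivAt_pow 5 T).const_mul (105 : ℝ))).fun_add
        ((hasDerivAt_pow 6 T).const_mul (15 : ℝ))).div_const 14
      refine h.congr_deriv ?_
      push_cast
      ring
    have h2 := hasDerivAt_rB (a := 6) (P' := fun T =>
      (105 + 606 * T + 1323 * T ^ 2 + 1212 * T ^ 3 + 525 * T ^ 4 + 90 * T ^ 5) / 14) h1
    refine h2.congr_deriv ?_
    have hT0 : T ≠ 0 := hT.1.ne'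
    have hk : 1 - T ^ 2 ≠ 0 := by nlinarith [hT.1, hT.2]
    unfold rB Q16 P16
    push_cast
    field_simp
    ring

end Vale.Agent.P224.SMH
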