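import Vale.Agent.P224.SMH.BdsGen
import Vale.Agent.P224.SMH.E16

/-!
Bounds of the coefficient functions in dimension 16.
-/

namespace Vale.Agent.P224.SMH.B16

open Set Filter Function Real
open scoped Topology
open Vale.Agent.P224.SM2 Vale.Agent.P224.SMH
open Vale.Agent.P224.SH (pv pv')

/-- `Z / (1 - T) ^ 8` times 70000 -/
def Lz : List ℤ := [75000, 600000, 1920000, 2760000, 960000, 120000]

/-- `Z / (1 - T) ^ 8` times 7000000 -/
def Lz0 : List ℤ := [7500000, 60000000, 192000000, 276000000, 96000000, 12000000]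

/-- coefficients -/
def Lel : List ℤ := [5355, 46900, 175056, 131348, -1575]

/-- coefficients -/
def Leu : List ℤ := [5481, 46116, 178164, 127988, 105]

/-- coefficients -/
def Lrl : List ℤ := [2184, 14308, 36036, 28112, 8533]

/-- coefficients -/
def Lru : List ℤ := [2212, 14196, 36792, 27356, 8995]

/-- coefficients -/
def Leu0 : List ℤ := [536620, 4794006, 16660770, 15881600, -4070640, 2531718, -580496]

/-- coefficients -/
def Lru0 : List ℤ := [219562, 1439214, 3531990, 3114020, 413280, 266112, -44891]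

lemma zX {y Z e r : ℝ → ℝ} {lam : ℝ} (hc : Cert 16 y Z e r)
    (hl : CertLim 16 y Z e r lam) (h0 : y 0 = 15 / 14) :
    ∀ T ∈ Ioo (0 : ℝ) 1, Z T = (1 - T) ^ (7 + 1) * pd 70000 Lz T := by
  intro T hT
  rw [(yZ16 hc hl h0 hT).2]
  simp only [pd, Lz, pv, Q16]
  push_cast
  ring

lemma zX0 {y Z e r : ℝ → ℝ} {lam : ℝ} (hc : Cert 16 y Z e r)
    (hl : CertLim 16 y Z e r lam) (h0 : y 0 = 15 / 14) :
    ∀ T ∈ Ioo (0 : ℝ) 1, Z T = (1 - T) ^ (7 + 1) * pd 7000000 Lz0 T := by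
  intro T hT
  rw [(yZ16 hc hl h0 hT).2]
  simp only [pd, Lz0, pv, Q16]
  push_cast
  ring

theorem el {y Z e r : ℝ → ℝ} {lam : ℝ} (hc : Cert 16 y Z e r)
    (hl : CertLim 16 y Z e r lam)
    (h0 : y 0 = 15 / 14) :
    ∀ T ∈ Ioo (0 : ℝ) 1, T * (1 - T) ^ (7 + 2) * pd 70000 Lel T ≤ e T := by
  refine gen_el (b := 7) hc hl (by norm_num) (fun T hT => (zX hc hl h0 T hT).ge) ?_
  intro T hT
  have h := SH.Pv1.pv_nonneg (N := 2) (l := [30, 15780, -111960, 308768, -344030, 138900])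
    (by norm_num) (by decide +kernel) ⟨hT.1.le, hT.2.le⟩
  refine h.trans (le_of_eq ?_)
  simp only [Lel, Lz, pv, pv']
  push_cast
  ring

theorem eu {y Z e r : ℝ → ℝ} {lam : ℝ} (hc : Cert 16 y Z e r)
    (hl : CertLim 16 y Z e r lam)
    (h0 : y 0 = 15 / 14) :
    ∀ T ∈ Ioo (0 : ℝ) 1, e T ≤ T * (1 - T) ^ (7 + 2) * pd 70000 Leu T := by
  refine gen_eu (b := 7) hc hl (by norm_num) (fun T hT => (zX hc hl h0 T hT).le) ?_
  intro T hT
  have h := SH.Pv1.pv_nonneg (N := 4) (l := [1734, -24684, 138336, -310784, 320510, -118740])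
    (by norm_num) (by decide +kernel) ⟨hT.1.le, hT.2.le⟩
  refine h.trans (le_of_eq ?_)
  simp only [Leu, Lz, pv, pv']
  push_cast
  ring

theorem eu0 {y Z e r : ℝ → ℝ} {lam : ℝ} (hc : Cert 16 y Z e r)
    (hl : CertLim 16 y Z e r lam)
    (h0 : y 0 = 15 / 14) :
    ∀ T ∈ Ioo (0 : ℝ) 1, e T ≤ T * (1 - T) ^ (7 + 2) * pd 7000000 Leu0 T := by
  refine gen_eu (b := 7) hc hl (by norm_num) (fun T hT => (zX0 hc hl h0 T hT).le) ?_
  intro T hT
  have h := SH.Pv1.pv_nonneg (N := 5) (l := [12680, -325448, 3371736, -15661040, 38392160,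
      -50720808, 34283060, -9287936])
    (by norm_num) (by decide +kernel) ⟨hT.1.le, hT.2.le⟩
  refine h.trans (le_of_eq ?_)
  simp only [Leu0, Lz0, pv, pv']
  push_cast
  ring

theorem rl {y Z e r : ℝ → ℝ} {lam : ℝ} (hc : Cert 16 y Z e r)
    (hl : CertLim 16 y Z e r lam)
    (h0 : y 0 = 15 / 14) :
    ∀ T ∈ Ioo (0 : ℝ) 1, (1 - T) ^ (7 + 2) * pd 70000 Lrl T ≤ r T := by
  refine gen_rl (b := 7) hc hl (by norm_num) (el hc hl h0) ?_
  intro T hT
  have h := SH.Pv1.pv_nonneg (N := 2) (l := [7, 1120, -7700, 20580, -22148, 8533])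
    (by norm_num) (by decide +kernel) ⟨hT.1.le, hT.2.le⟩
  refine h.trans (le_of_eq ?_)
  simp only [Lrl, Lel, pv, pv']
  push_cast
  ring

theorem ru {y Z e r : ℝ → ℝ} {lam : ℝ} (hc : Cert 16 y Z e r)
    (hl : CertLim 16 y Z e r lam)
    (h0 : y 0 = 15 / 14) :
    ∀ T ∈ Ioo (0 : ℝ) 1, r T ≤ (1 - T) ^ (7 + 2) * pd 70000 Lru T := by
  refine gen_ru (b := 7) hc hl (by norm_num) (eu hc hl h0) ?_
  intro T hT
  have h := SH.Pv1.pv_nonneg (N := 4) (l := [231, -2996, 14112, -28140, 26138, -8995])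
    (by norm_num) (by decide +kernel) ⟨hT.1.le, hT.2.le⟩
  refine h.trans (le_of_eq ?_)
  simp only [Lru, Leu, pv, pv']
  push_cast
  ring

theorem ru0 {y Z e r : ℝ → ℝ} {lam : ℝ} (hc : Cert 16 y Z e r)
    (hl : CertLim 16 y Z e r lam)
    (h0 : y 0 = 15 / 14) :
    ∀ T ∈ Ioo (0 : ℝ) 1, r T ≤ (1 - T) ^ (7 + 2) * pd 7000000 Lru0 T := by
  refine gen_ru (b := 7) hc hl (by norm_num) (eu0 hc hl h0) ?_
  intro T hT
  have h := SH.Pv1.pv_nonneg (N := 2) (l := [224, -2870, 28224, -104510, 231560, -280644, 176477,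
      -44891])
    (by norm_num) (by decide +kernel) ⟨hT.1.le, hT.2.le⟩
  refine h.trans (le_of_eq ?_)
  simp only [Lru0, Leu0, pv, pv']
  push_cast
  ring

/-- the value of `r` at zero -/
theorem r_zero {y Z e r : ℝ → ℝ} {lam : ℝ} (hc : Cert 16 y Z e r)
    (hl : CertLim 16 y Z e r lam) (h0 : y 0 = 15 / 14) :
    16 * r 0 ≤ 15683/31250 := by
  have h := r_zero_le (P := fun T => (1 - T) ^ (7 + 2) * pd 7000000 Lru0 T) hc
    (by
      have := continuous_pd 7000000 Lru0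
      fun_prop) (ru0 hc hl h0)
  have e : (1 - (0 : ℝ)) ^ (7 + 2) * pd 7000000 Lru0 0 = 15683/500000 := by
    simp only [pd, Lru0, pv]
    push_cast
    norm_num
  rw [e] at h
  linarith

end Vale.Agent.P224.SMH.B16
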