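import Vale.Agent.P224.SMH.BdsGen

/-!
Bounds of the coefficient functions in dimension 6.
-/

namespace Vale.Agent.P224.SMH.B6

open Set Filter Function Real
open scoped Topology
open Vale.Agent.P224.SM2 Vale.Agent.P224.SMH
open Vale.Agent.P224.SH (pv pv')

/-- coefficients -/
def Lyl : List ℤ := [11981, 26290, -23160, 26800, -16670, 4208]

/-- coefficients -/
def Lyu : List ℤ := [12501, 26285, -34500, 59550, -51365, 17018]

/-- coefficients -/
def Lyu0 : List ℤ := [1250235, 2482272, -754684, -13379688, 64032430, -134040760, 148649004, -85215776, 19923552]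

/-- coefficients -/
def Lzl : List ℤ := [11975, 36645, -53720, 71770, -53140, 15905]

/-- coefficients -/
def Lzu : List ℤ := [12721, 33275, -50170, 77110, -65230, 21836]

/-- coefficients -/
def Lzu0 : List ℤ := [1250360, 3794136, -8848728, 21745136, -30998660, 18989320, 4543896, -11839128, 4310797]

/-- coefficients -/
def Lel : List ℤ := [2992, 7195, -24330, 40370, -33130, 10580]

/-- coefficients -/
def Leu : List ℤ := [3332, 4390, -14700, 24460, -20590, 6817]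

/-- coefficients -/
def Lrl : List ℤ := [893, 580, -2190, 3930, -3505, 1211]

/-- coefficients -/
def Lru : List ℤ := [926, 325, -1220, 2140, -1940, 697]

/-- coefficients -/
def Leu0 : List ℤ := [319254, 774360, -4649260, 17324384, -40990390, 60703104, -54405680, 26949992, -5657336]

/-- coefficients -/
def Lru0 : List ℤ := [91802, 46160, -268380, 996352, -2484230, 3943184, -3796072, 2014416, -451116]

theorem zl {y Z e r : ℝ → ℝ} {lam : ℝ} (hc : Cert 6 y Z e r)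
    (hl : CertLim 6 y Z e r lam)
    (hyl : ∀ T ∈ Ioo (0 : ℝ) 1, (1 - T) ^ 2 * pd 10000 Lyl T ≤ y T) :
    ∀ T ∈ Ioo (0 : ℝ) 1, (1 - T) ^ (2 + 1) * pd 10000 Lzl T ≤ Z T := by
  refine gen_zl (b := 2) hc hl (by norm_num) (hyl) ?_
  intro T hT
  have h := SH.Pv1.pv_nonneg (N := 3) (l := [18, 5580, -52405, 187840, -318460, 256994, -79525])
    (by norm_num) (by decide +kernel) ⟨hT.1.le, hT.2.le⟩
  refine h.trans (le_of_eq ?_)
  simp only [Lzl, Lyl, pv, pv']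
  push_cast
  ring

theorem zu {y Z e r : ℝ → ℝ} {lam : ℝ} (hc : Cert 6 y Z e r)
    (hl : CertLim 6 y Z e r lam)
    (hyu : ∀ T ∈ Ioo (0 : ℝ) 1, y T ≤ (1 - T) ^ 2 * pd 10000 Lyu T) :
    ∀ T ∈ Ioo (0 : ℝ) 1, Z T ≤ (1 - T) ^ (2 + 1) * pd 10000 Lzu T := by
  refine gen_zu (b := 2) hc hl (by norm_num) (hyu) ?_
  intro T hT
  have h := SH.Pv1.pv_nonneg (N := 5) (l := [660, -12305, 86605, -278990, 450655, -355646, 109180])
    (by norm_num) (by decide +kernel) ⟨hT.1.le, hT.2.le⟩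
  refine h.trans (le_of_eq ?_)
  simp only [Lzu, Lyu, pv, pv']
  push_cast
  ring

theorem zu0 {y Z e r : ℝ → ℝ} {lam : ℝ} (hc : Cert 6 y Z e r)
    (hl : CertLim 6 y Z e r lam)
    (hyu0 : ∀ T ∈ Ioo (0 : ℝ) 1, y T ≤ (1 - T) ^ 2 * pd 1000000 Lyu0 T) :
    ∀ T ∈ Ioo (0 : ℝ) 1, Z T ≤ (1 - T) ^ (2 + 1) * pd 1000000 Lzu0 T := by
  refine gen_zu (b := 2) hc hl (by norm_num) (hyu0) ?_
  intro T hT
  have h := SH.Pv1.pv_nonneg (N := 4) (l := [375, 141456, -2790540, 22441608, -95863222, 240149000, -364632100, 330267216, -164198537, 34486376])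
    (by norm_num) (by decide +kernel) ⟨hT.1.le, hT.2.le⟩
  refine h.trans (le_of_eq ?_)
  simp only [Lzu0, Lyu0, pv, pv']
  push_cast
  ring

theorem el {y Z e r : ℝ → ℝ} {lam : ℝ} (hc : Cert 6 y Z e r)
    (hl : CertLim 6 y Z e r lam)
    (hyl : ∀ T ∈ Ioo (0 : ℝ) 1, (1 - T) ^ 2 * pd 10000 Lyl T ≤ y T) :
    ∀ T ∈ Ioo (0 : ℝ) 1, T * (1 - T) ^ (2 + 2) * pd 10000 Lel T ≤ e T := by
  refine gen_el (b := 2) hc hl (by norm_num) (zl hc hl hyl) ?_
  intro T hT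
  have h := SH.Pv1.pv_nonneg (N := 5) (l := [7, 10287, -96890, 347150, -589360, 476945, -148120])
    (by norm_num) (by decide +kernel) ⟨hT.1.le, hT.2.le⟩
  refine h.trans (le_of_eq ?_)
  simp only [Lel, Lzl, pv, pv']
  push_cast
  ring

theorem eu {y Z e r : ℝ → ℝ} {lam : ℝ} (hc : Cert 6 y Z e r)
    (hl : CertLim 6 y Z e r lam)
    (hyu : ∀ T ∈ Ioo (0 : ℝ) 1, y T ≤ (1 - T) ^ 2 * pd 10000 Lyu T) :
    ∀ T ∈ Ioo (0 : ℝ) 1, e T ≤ T * (1 - T) ^ (2 + 2) * pd 10000 Leu T := by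
  refine gen_eu (b := 2) hc hl (by norm_num) (zu hc hl hyu) ?_
  intro T hT
  have h := SH.Pv1.pv_nonneg (N := 6) (l := [607, -11167, 76510, -243630, 392190, -309818, 95438])
    (by norm_num) (by decide +kernel) ⟨hT.1.le, hT.2.le⟩
  refine h.trans (le_of_eq ?_)
  simp only [Leu, Lzu, pv, pv']
  push_cast
  ring

theorem eu0 {y Z e r : ℝ → ℝ} {lam : ℝ} (hc : Cert 6 y Z e r)
    (hl : CertLim 6 y Z e r lam)
    (hyu0 : ∀ T ∈ Ioo (0 : ℝ) 1, y T ≤ (1 - T) ^ 2 * pd 1000000 Lyu0 T) :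
    ∀ T ∈ Ioo (0 : ℝ) 1, e T ≤ T * (1 - T) ^ (2 + 2) * pd 1000000 Leu0 T := by
  refine gen_eu (b := 2) hc hl (by norm_num) (zu0 hc hl hyu0) ?_
  intro T hT
  have h := SH.Pv1.pv_nonneg (N := 12) (l := [26656, -968400, 13494888, -93587984, 368204060, -875092624, 1280545000, -1128151672, 548677091, -113146720])
    (by norm_num) (by decide +kernel) ⟨hT.1.le, hT.2.le⟩
  refine h.trans (le_of_eq ?_)
  simp only [Leu0, Lzu0, pv, pv']
  push_cast
  ring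

theorem rl {y Z e r : ℝ → ℝ} {lam : ℝ} (hc : Cert 6 y Z e r)
    (hl : CertLim 6 y Z e r lam)
    (hyl : ∀ T ∈ Ioo (0 : ℝ) 1, (1 - T) ^ 2 * pd 10000 Lyl T ≤ y T) :
    ∀ T ∈ Ioo (0 : ℝ) 1, (1 - T) ^ (2 + 2) * pd 10000 Lrl T ≤ r T := by
  refine gen_rl (b := 2) hc hl (by norm_num) (el hc hl hyl) ?_
  intro T hT
  have h := SH.Pv1.pv_nonneg (N := 4) (l := [0, 495, -4360, 15010, -24845, 19756, -6055])
    (by norm_num) (by decide +kernel) ⟨hT.1.le, hT.2.le⟩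
  refine h.trans (le_of_eq ?_)
  simp only [Lrl, Lel, pv, pv']
  push_cast
  ring

theorem ru {y Z e r : ℝ → ℝ} {lam : ℝ} (hc : Cert 6 y Z e r)
    (hl : CertLim 6 y Z e r lam)
    (hyu : ∀ T ∈ Ioo (0 : ℝ) 1, y T ≤ (1 - T) ^ 2 * pd 10000 Lyu T) :
    ∀ T ∈ Ioo (0 : ℝ) 1, r T ≤ (1 - T) ^ (2 + 2) * pd 10000 Lru T := by
  refine gen_ru (b := 2) hc hl (by norm_num) (eu hc hl hyu) ?_
  intro T hT
  have h := SH.Pv1.pv_nonneg (N := 6) (l := [47, -650, 3725, -10580, 15765, -11789, 3485])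
    (by norm_num) (by decide +kernel) ⟨hT.1.le, hT.2.le⟩
  refine h.trans (le_of_eq ?_)
  simp only [Lru, Leu, pv, pv']
  push_cast
  ring

theorem ru0 {y Z e r : ℝ → ℝ} {lam : ℝ} (hc : Cert 6 y Z e r)
    (hl : CertLim 6 y Z e r lam)
    (hyu0 : ∀ T ∈ Ioo (0 : ℝ) 1, y T ≤ (1 - T) ^ 2 * pd 1000000 Lyu0 T) :
    ∀ T ∈ Ioo (0 : ℝ) 1, r T ≤ (1 - T) ^ (2 + 2) * pd 1000000 Lru0 T := by
  refine gen_ru (b := 2) hc hl (by norm_num) (eu0 hc hl hyu0) ?_
  intro T hT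
  have h := SH.Pv1.pv_nonneg (N := 6) (l := [1794, -52960, 632844, -3938816, 14326606, -32090856, 44836400, -38059832, 17953784, -3608928])
    (by norm_num) (by decide +kernel) ⟨hT.1.le, hT.2.le⟩
  refine h.trans (le_of_eq ?_)
  simp only [Lru0, Leu0, pv, pv']
  push_cast
  ring

/-- the value of `r` at zero -/
theorem r_zero {y Z e r : ℝ → ℝ} {lam : ℝ} (hc : Cert 6 y Z e r)
    (hl : CertLim 6 y Z e r lam)
    (hyu0 : ∀ T ∈ Ioo (0 : ℝ) 1, y T ≤ (1 - T) ^ 2 * pd 1000000 Lyu0 T) :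
    6 * r 0 ≤ 137703 / 250000 := by
  have h := r_zero_le (P := fun T => (1 - T) ^ (2 + 2) * pd 1000000 Lru0 T) hc
    (by
      have := continuous_pd 1000000 Lru0
      fun_prop) (ru0 hc hl hyu0)
  have e : (1 - (0 : ℝ)) ^ (2 + 2) * pd 1000000 Lru0 0 = 45901 / 500000 := by
    simp only [pd, Lru0, pv]
    push_cast
    norm_num

  rw [e] at h
  linarith

end Vale.Agent.P224.SMH.B6
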