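import Vale.Agent.P224.SMH.BdsGen

/-!
Bounds of the coefficient functions in dimension 8.
-/

namespace Vale.Agent.P224.SMH.B8

open Set Filter Function Real
open scoped Topology
open Vale.Agent.P224.SM2 Vale.Agent.P224.SMH
open Vale.Agent.P224.SH (pv pv')

/-- `Z / (1 - T) ^ 4` times 60000 -/
def Lz : List ℤ := [70000, 280000]

/-- `Z / (1 - T) ^ 4` times 6000000 -/
def Lz0 : List ℤ := [7000000, 28000000]

/-- coefficients -/
def Lel : List ℤ := [11652, 47070, -38232, 14478]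

/-- coefficients -/
def Leu : List ℤ := [12594, 43488, -33120, 12294]

/-- coefficients -/
def Lrl : List ℤ := [3900, 7848, -5112, 2094]

/-- coefficients -/
def Lru : List ℤ := [4044, 7362, -4284, 1710]

/-- coefficients -/
def Leu0 : List ℤ := [1170348, 5623536, -10829952, 25216464, -48686820, 65768976, -56548128, 27550608, -5764680]

/-- coefficients -/
def Lru0 : List ℤ := [397710, 816624, -946848, 1850352, -3369660, 4589424, -4093656, 2091648, -460416]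

lemma zX {y Z e r : ℝ → ℝ} {lam : ℝ} (hc : Cert 8 y Z e r)
    (hl : CertLim 8 y Z e r lam) (h0 : y 0 = 7 / 6) :
    ∀ T ∈ Ioo (0 : ℝ) 1, Z T = (1 - T) ^ (3 + 1) * pd 60000 Lz T := by
  intro T hT
  rw [(yZ8 hc hl h0 hT).2]
  simp only [pd, Lz, pv, Q8]
  push_cast
  ring

lemma zX0 {y Z e r : ℝ → ℝ} {lam : ℝ} (hc : Cert 8 y Z e r)
    (hl : CertLim 8 y Z e r lam) (h0 : y 0 = 7 / 6) :
    ∀ T ∈ Ioo (0 : ℝ) 1, Z T = (1 - T) ^ (3 + 1) * pd 6000000 Lz0 T := by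
  intro T hT
  rw [(yZ8 hc hl h0 hT).2]
  simp only [pd, Lz0, pv, Q8]
  push_cast
  ring

theorem el {y Z e r : ℝ → ℝ} {lam : ℝ} (hc : Cert 8 y Z e r)
    (hl : CertLim 8 y Z e r lam) (h0 : y 0 = 7 / 6) :
    ∀ T ∈ Ioo (0 : ℝ) 1, T * (1 - T) ^ (3 + 2) * pd 60000 Lel T ≤ e T := by
  refine gen_el (b := 3) hc hl (by norm_num) (fun T hT => (zX hc hl h0 T hT).ge) ?_
  intro T hT
  have h := SH.Pv1.pv_nonneg (N := 4) (l := [88, 45112, -205956, 305856, -144780])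
    (by norm_num) (by decide +kernel) ⟨hT.1.le, hT.2.le⟩
  refine h.trans (le_of_eq ?_)
  simp only [Lel, Lz, pv, pv']
  push_cast
  ring

theorem eu {y Z e r : ℝ → ℝ} {lam : ℝ} (hc : Cert 8 y Z e r)
    (hl : CertLim 8 y Z e r lam) (h0 : y 0 = 7 / 6) :
    ∀ T ∈ Ioo (0 : ℝ) 1, e T ≤ T * (1 - T) ^ (3 + 2) * pd 60000 Leu T := by
  refine gen_eu (b := 3) hc hl (by norm_num) (fun T hT => (zX hc hl h0 T hT).le) ?_
  intro T hT
  have h := SH.Pv1.pv_nonneg (N := 4) (l := [5564, -55672, 194688, -264960, 122940])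
    (by norm_num) (by decide +kernel) ⟨hT.1.le, hT.2.le⟩
  refine h.trans (le_of_eq ?_)
  simp only [Leu, Lz, pv, pv']
  push_cast
  ring

theorem eu0 {y Z e r : ℝ → ℝ} {lam : ℝ} (hc : Cert 8 y Z e r)
    (hl : CertLim 8 y Z e r lam) (h0 : y 0 = 7 / 6) :
    ∀ T ∈ Ioo (0 : ℝ) 1, e T ≤ T * (1 - T) ^ (3 + 2) * pd 6000000 Leu0 T := by
  refine gen_eu (b := 3) hc hl (by norm_num) (fun T hT => (zX0 hc hl h0 T hT).le) ?_
  intro T hT
  have h := SH.Pv1.pv_nonneg (N := 8) (l := [22088, -824464, 12081312, -86639616, 349538280, -847317744, 1260054432, -1125174912, 553557744, -115293600])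
    (by norm_num) (by decide +kernel) ⟨hT.1.le, hT.2.le⟩
  refine h.trans (le_of_eq ?_)
  simp only [Leu0, Lz0, pv, pv']
  push_cast
  ring

theorem rl {y Z e r : ℝ → ℝ} {lam : ℝ} (hc : Cert 8 y Z e r)
    (hl : CertLim 8 y Z e r lam) (h0 : y 0 = 7 / 6) :
    ∀ T ∈ Ioo (0 : ℝ) 1, (1 - T) ^ (3 + 2) * pd 60000 Lrl T ≤ r T := by
  refine gen_rl (b := 3) hc hl (by norm_num) (el hc hl h0) ?_
  intro T hT
  have h := SH.Pv1.pv_nonneg (N := 2) (l := [0, 1506, -6390, 9120, -4188])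
    (by norm_num) (by decide +kernel) ⟨hT.1.le, hT.2.le⟩
  refine h.trans (le_of_eq ?_)
  simp only [Lrl, Lel, pv, pv']
  push_cast
  ring

theorem ru {y Z e r : ℝ → ℝ} {lam : ℝ} (hc : Cert 8 y Z e r)
    (hl : CertLim 8 y Z e r lam) (h0 : y 0 = 7 / 6) :
    ∀ T ∈ Ioo (0 : ℝ) 1, r T ≤ (1 - T) ^ (3 + 2) * pd 60000 Lru T := by
  refine gen_ru (b := 3) hc hl (by norm_num) (eu hc hl h0) ?_
  intro T hT
  have h := SH.Pv1.pv_nonneg (N := 3) (l := [264, -2154, 6570, -8028, 3420])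
    (by norm_num) (by decide +kernel) ⟨hT.1.le, hT.2.le⟩
  refine h.trans (le_of_eq ?_)
  simp only [Lru, Leu, pv, pv']
  push_cast
  ring

theorem ru0 {y Z e r : ℝ → ℝ} {lam : ℝ} (hc : Cert 8 y Z e r)
    (hl : CertLim 8 y Z e r lam) (h0 : y 0 = 7 / 6) :
    ∀ T ∈ Ioo (0 : ℝ) 1, r T ≤ (1 - T) ^ (3 + 2) * pd 6000000 Lru0 T := by
  refine gen_ru (b := 3) hc hl (by norm_num) (eu0 hc hl h0) ?_
  intro T hT
  have h := SH.Pv1.pv_nonneg (N := 4) (l := [1578, -44430, 544656, -3432912, 12592104, -28368900, 39796008, -33877320, 16012488, -3222912])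
    (by norm_num) (by decide +kernel) ⟨hT.1.le, hT.2.le⟩
  refine h.trans (le_of_eq ?_)
  simp only [Lru0, Leu0, pv, pv']
  push_cast
  ring

/-- the value of `r` at zero -/
theorem r_zero {y Z e r : ℝ → ℝ} {lam : ℝ} (hc : Cert 8 y Z e r)
    (hl : CertLim 8 y Z e r lam) (h0 : y 0 = 7 / 6) :
    8 * r 0 ≤ 13257 / 25000 := by
  have h := r_zero_le (P := fun T => (1 - T) ^ (3 + 2) * pd 6000000 Lru0 T) hc
    (by
      have := continuous_pd 6000000 Lru0
      fun_prop) (ru0 hc hl h0)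
  have e : (1 - (0 : ℝ)) ^ (3 + 2) * pd 6000000 Lru0 0 = 13257 / 200000 := by
    simp only [pd, Lru0, pv]
    push_cast
    norm_num

  rw [e] at h
  linarith

end Vale.Agent.P224.SMH.B8
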