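import Vale.Agent.P224.SMH.E4b
import Vale.Agent.P224.SH.Chk4

/-!
The bounds of the coefficient functions in dimension four in the form of the static part.
-/

namespace Vale.Agent.P224.SMH

open Set
open Vale.Agent.P224.SM2

/-- **The bounds of the coefficient functions.** -/
theorem bds4 {T : ℝ} (hT : T ∈ Ioo (0 : ℝ) 1) : SH.Bds SH.BD4 T (y4 T) (e4 T) (r4 T) where
  y := by
    simp only [SH.BD4, SH.pv, y4]
    push_cast
    linarith
  el := by
    have h := e4_lower hT
    simp only [SH.BD4, SH.pv]
    push_cast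
    linarith
  eu := by
    have h := e4_upper hT
    simp only [SH.BD4, SH.pv]
    push_cast
    linarith
  rl := by
    have h := r4_lower hT
    simp only [SH.BD4, SH.pv]
    push_cast
    linarith
  ru := by
    have h := r4_upper hT
    simp only [SH.BD4, SH.pv]
    push_cast
    linarith

/-- **The static inequality, pointwise.** -/
theorem le_FK4 {T : ℝ} (hT : T ∈ Ioo (0 : ℝ) 1) {k : R4} (hk : Adm k) :
    SH.Hd' SH.HD4 T k ≤ FK 4 T (y4 T) (e4 T) (r4 T) k :=
  SH.le_FK SH.ok4 hT (bds4 hT) hk hk.det2

end Vale.Agent.P224.SMH
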