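import Vale.Agent.P224.SMH.Uniq

/-!
The functions `y`, `Z` in dimensions eight and twelve.
-/

namespace Vale.Agent.P224.SMH

open Set Filter Function Real
open scoped Topology
open Vale.Agent.P224.SM2

/-- dimension eight: `y = (1 - T) ^ 3 P8` -/
noncomputable def P8 (T : ℝ) : ℝ := (7 + 21 * T + 7 * T ^ 2) / 6

/-- dimension eight: `Z = (1 - T) ^ 4 Q8` -/
noncomputable def Q8 (T : ℝ) : ℝ := (7 + 28 * T) / 6

/-- dimension twelve: `y = (1 - T) ^ 5 P12` -/
noncomputable def P12 (T : ℝ) : ℝ :=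
  (11 + 55 * T + 99 * T ^ 2 + 55 * T ^ 3 + 11 * T ^ 4) / 10

/-- dimension twelve: `Z = (1 - T) ^ 6 Q12` -/
noncomputable def Q12 (T : ℝ) : ℝ := (11 + 66 * T + 132 * T ^ 2 + 22 * T ^ 3) / 10

theorem yZ8 {y Z e r : ℝ → ℝ} {lam : ℝ} (hc : Cert 8 y Z e r) (hl : CertLim 8 y Z e r lam)
    (h0 : y 0 = 7 / 6) {T : ℝ} (hT : T ∈ Ioo (0 : ℝ) 1) :
    y T = (1 - T) ^ 3 * P8 T ∧ Z T = (1 - T) ^ 4 * Q8 T := by
  refine cert_uniq (b := 3) (by norm_num) hc hl (P := P8) (Q := Q8) (by unfold P8; fun_prop)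
    (by unfold Q8; fun_prop) (fun T hT => by
      unfold P8
      have := hT.1
      positivity) (by rw [h0]; unfold P8; norm_num) ?_ ?_ T hT
  · intro T hT
    have h1 : HasDerivAt Q8 (28 / 6) T := by
      have h := (((hasDerivAt_id T).const_mul (28 : ℝ)).const_add 7).div_const 6
      refine h.congr_deriv ?_
      norm_num
    refine (hasDerivAt_rB (a := 3) (P' := fun _ => 28 / 6) h1).congr_deriv ?_
    have hT0 : T ≠ 0 := hT.1.ne'
    unfold rB Q8 P8
    push_cast
    field_simp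
    ring
  · intro T hT
    have h1 : HasDerivAt P8 ((21 + 14 * T) / 6) T := by
      have h := ((((hasDerivAt_id T).const_mul (21 : ℝ)).const_add 7).fun_add
        ((hasDerivAt_pow 2 T).const_mul (7 : ℝ))).div_const 6
      refine h.congr_deriv ?_
      push_cast
      ring
    have h2 := hasDerivAt_rB (a := 2) (P' := fun T => (21 + 14 * T) / 6) h1
    refine h2.congr_deriv ?_
    have hT0 : T ≠ 0 := hT.1.ne'
    have hk : 1 - T ^ 2 ≠ 0 := by nlinarith [hT.1, hT.2]
    unfold rB Q8 P8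
    push_cast
    field_simp
    ring

theorem yZ12 {y Z e r : ℝ → ℝ} {lam : ℝ} (hc : Cert 12 y Z e r) (hl : CertLim 12 y Z e r lam)
    (h0 : y 0 = 11 / 10) {T : ℝ} (hT : T ∈ Ioo (0 : ℝ) 1) :
    y T = (1 - T) ^ 5 * P12 T ∧ Z T = (1 - T) ^ 6 * Q12 T := by
  refine cert_uniq (b := 5) (by norm_num) hc hl (P := P12) (Q := Q12) (by unfold P12; fun_prop)
    (by unfold Q12; fun_prop) (fun T hT => by
      unfold P12
      have := hT.1
      positivity) (by rw [h0]; unfold P12; norm_num) ?_ ?_ T hT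
  · intro T hT
    have h1 : HasDerivAt Q12 ((66 + 264 * T + 66 * T ^ 2) / 10) T := by
      have h := (((((hasDerivAt_id T).const_mul (66 : ℝ)).const_add 11).fun_add
        ((hasDerivAt_pow 2 T).const_mul (132 : ℝ))).fun_add
        ((hasDerivAt_pow 3 T).const_mul (22 : ℝ))).div_const 10
      refine h.congr_deriv ?_
      push_cast
      ring
    refine (hasDerivAt_rB (a := 5) (P' := fun T => (66 + 264 * T + 66 * T ^ 2) / 10)
      h1).congr_deriv ?_
    have hT0 : T ≠ 0 := hT.1.ne'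
    unfold rB Q12 P12
    push_cast
    field_simp
    ring
  · intro T hT
    have h1 : HasDerivAt P12 ((55 + 198 * T + 165 * T ^ 2 + 44 * T ^ 3) / 10) T := by
      have h := ((((((hasDerivAt_id T).const_mul (55 : ℝ)).const_add 11).fun_add
        ((hasDerivAt_pow 2 T).const_mul (99 : ℝ))).fun_add
        ((hasDerivAt_pow 3 T).const_mul (55 : ℝ))).fun_add
        ((hasDerivAt_pow 4 T).const_mul (11 : ℝ))).div_const 10
      refine h.congr_deriv ?_
      push_cast
      ring
    have h2 := hasDerivAt_rB (a := 4)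
      (P' := fun T => (55 + 198 * T + 165 * T ^ 2 + 44 * T ^ 3) / 10) h1
    refine h2.congr_deriv ?_
    have hT0 : T ≠ 0 := hT.1.ne'
    have hk : 1 - T ^ 2 ≠ 0 := by nlinarith [hT.1, hT.2]
    unfold rB Q12 P12
    push_cast
    field_simp
    ring

end Vale.Agent.P224.SMH
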