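import Vale.Agent.P224.SMH.CmpZ
import Vale.Agent.P224.SMH.E8
import Vale.Agent.P224.SH.Pv1
import Vale.Agent.P224.SH.HD

/-!
Bounds of the coefficient functions by polynomials with integer coefficients (even dimension
`m = 2 (b + 1)`).
-/

namespace Vale.Agent.P224.SMH

open Set Filter Function Real
open scoped Topology
open Vale.Agent.P224.SM2
open Vale.Agent.P224.SH (pv pv')

/-- a polynomial with denominator -/
noncomputable def pd (D : ℝ) (L : List ℤ) (T : ℝ) : ℝ := pv L T / D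

/-- its derivative -/
noncomputable def pd' (D : ℝ) (L : List ℤ) (T : ℝ) : ℝ := pv' L T / D

lemma continuous_pd (D : ℝ) (L : List ℤ) : Continuous (pd D L) :=
  (SH.continuous_pv L).div_const D

lemma hasDerivAt_pd (D : ℝ) (L : List ℤ) (T : ℝ) : HasDerivAt (pd D L) (pd' D L T) T :=
  (SH.hasDerivAt_pv L T).div_const D

section

variable {b : ℕ} {y Z e r : ℝ → ℝ} {lam D : ℝ} {LY LZ LE LR : List ℤ}

/-- lower bound of `Z` from the lower bound of `y` -/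
theorem gen_zl (hc : Cert (2 * (b + 1)) y Z e r) (hl : CertLim (2 * (b + 1)) y Z e r lam)
    (hD : 0 < D) (hy : ∀ T ∈ Ioo (0 : ℝ) 1, (1 - T) ^ b * pd D LY T ≤ y T)
    (hres : ∀ T ∈ Ioo (0 : ℝ) 1,
      0 ≤ (b + 1) * pv LY T - (b + 1) * pv LZ T + T * (1 - T) * pv' LZ T) :
    ∀ T ∈ Ioo (0 : ℝ) 1, (1 - T) ^ (b + 1) * pd D LZ T ≤ Z T := by
  refine zB_le hc hl (continuous_pd D LZ) (hasDerivAt_pd D LZ) (Q := pd D LY) hy ?_
  intro T hT
  have h := div_nonneg (hres T hT) hD.le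
  refine h.trans (le_of_eq ?_)
  unfold pd pd'
  ring

/-- upper bound of `Z` from the upper bound of `y` -/
theorem gen_zu (hc : Cert (2 * (b + 1)) y Z e r) (hl : CertLim (2 * (b + 1)) y Z e r lam)
    (hD : 0 < D) (hy : ∀ T ∈ Ioo (0 : ℝ) 1, y T ≤ (1 - T) ^ b * pd D LY T)
    (hres : ∀ T ∈ Ioo (0 : ℝ) 1,
      0 ≤ (b + 1) * pv LZ T - (b + 1) * pv LY T - T * (1 - T) * pv' LZ T) :
    ∀ T ∈ Ioo (0 : ℝ) 1, Z T ≤ (1 - T) ^ (b + 1) * pd D LZ T := by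
  refine le_zB hc hl (continuous_pd D LZ) (hasDerivAt_pd D LZ) (Q := pd D LY) hy ?_
  intro T hT
  have h := div_nonneg (hres T hT) hD.le
  refine h.trans (le_of_eq ?_)
  unfold pd pd'
  ring

/-- lower bound of `e` from the lower bound of `Z` -/
theorem gen_el (hc : Cert (2 * (b + 1)) y Z e r) (hl : CertLim (2 * (b + 1)) y Z e r lam)
    (hD : 0 < D) (hZ : ∀ T ∈ Ioo (0 : ℝ) 1, (1 - T) ^ (b + 1) * pd D LZ T ≤ Z T)
    (hres : ∀ T ∈ Ioo (0 : ℝ) 1,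
      0 ≤ pv LZ T - ((2 * b) * (1 - T) + (2 * b + 4) * T) * pv LE T
        + 2 * (1 - T) * T * pv' LE T) :
    ∀ T ∈ Ioo (0 : ℝ) 1, T * (1 - T) ^ (b + 2) * pd D LE T ≤ e T := by
  refine eB_le hc hl (continuous_pd D LE) (hasDerivAt_pd D LE) (ζ := pd D LZ) hZ ?_
  intro T hT
  have h := div_nonneg (hres T hT) hD.le
  refine h.trans (le_of_eq ?_)
  unfold pd pd'
  push_cast
  ring

/-- upper bound of `e` from the upper bound of `Z` -/
theorem gen_eu (hc : Cert (2 * (b + 1)) y Z e r) (hl : CertLim (2 * (b + 1)) y Z e r lam)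
    (hD : 0 < D) (hZ : ∀ T ∈ Ioo (0 : ℝ) 1, Z T ≤ (1 - T) ^ (b + 1) * pd D LZ T)
    (hres : ∀ T ∈ Ioo (0 : ℝ) 1,
      0 ≤ ((2 * b) * (1 - T) + (2 * b + 4) * T) * pv LE T
        - 2 * (1 - T) * T * pv' LE T - pv LZ T) :
    ∀ T ∈ Ioo (0 : ℝ) 1, e T ≤ T * (1 - T) ^ (b + 2) * pd D LE T := by
  refine le_eB hc hl (continuous_pd D LE) (hasDerivAt_pd D LE) (ζ := pd D LZ) hZ ?_
  intro T hT
  have h := div_nonneg (hres T hT) hD.le
  refine h.trans (le_of_eq ?_)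
  unfold pd pd'
  push_cast
  ring

/-- lower bound of `r` from the lower bound of `e` -/
theorem gen_rl (hc : Cert (2 * (b + 1)) y Z e r) (hl : CertLim (2 * (b + 1)) y Z e r lam)
    (hD : 0 < D) (he : ∀ T ∈ Ioo (0 : ℝ) 1, T * (1 - T) ^ (b + 2) * pd D LE T ≤ e T)
    (hres : ∀ T ∈ Ioo (0 : ℝ) 1,
      0 ≤ pv LE T - (b + 2) * (1 + T) * pv LR T + (1 - T ^ 2) * pv' LR T
        + 2 * b * T * pv LR T) :
    ∀ T ∈ Ioo (0 : ℝ) 1, (1 - T) ^ (b + 2) * pd D LR T ≤ r T := by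
  refine rB_le hc hl (continuous_pd D LR) (hasDerivAt_pd D LR) (P := pd D LE) he ?_
  intro T hT
  have h := div_nonneg (hres T hT) hD.le
  refine h.trans (le_of_eq ?_)
  unfold pd pd'
  ring

/-- upper bound of `r` from the upper bound of `e` -/
theorem gen_ru (hc : Cert (2 * (b + 1)) y Z e r) (hl : CertLim (2 * (b + 1)) y Z e r lam)
    (hD : 0 < D) (he : ∀ T ∈ Ioo (0 : ℝ) 1, e T ≤ T * (1 - T) ^ (b + 2) * pd D LE T)
    (hres : ∀ T ∈ Ioo (0 : ℝ) 1,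
      0 ≤ (b + 2) * (1 + T) * pv LR T - (1 - T ^ 2) * pv' LR T
        - 2 * b * T * pv LR T - pv LE T) :
    ∀ T ∈ Ioo (0 : ℝ) 1, r T ≤ (1 - T) ^ (b + 2) * pd D LR T := by
  refine le_rB hc hl (continuous_pd D LR) (hasDerivAt_pd D LR) (P := pd D LE) he ?_
  intro T hT
  have h := div_nonneg (hres T hT) hD.le
  refine h.trans (le_of_eq ?_)
  unfold pd pd'
  ring

/-- the value of `r` at zero -/
theorem r_zero_le {m : ℕ} {P : ℝ → ℝ} (hc : Cert m y Z e r) (hP : Continuous P)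
    (h : ∀ T ∈ Ioo (0 : ℝ) 1, r T ≤ P T) : r 0 ≤ P 0 := by
  have hle : 𝓝[>] (0 : ℝ) ≤ 𝓝[Ico 0 1] 0 := by
    rw [← nhdsWithin_Ioo_eq_nhdsGT (zero_lt_one (α := ℝ))]
    exact nhdsWithin_mono _ Ioo_subset_Ico_self
  have a1 : Tendsto r (𝓝[>] 0) (𝓝 (r 0)) := (hc.cr 0 ⟨le_rfl, one_pos⟩).mono_left hle
  have a2 : Tendsto P (𝓝[>] 0) (𝓝 (P 0)) := (hP.tendsto 0).mono_left nhdsWithin_le_nhds
  refine le_of_tendsto_of_tendsto a1 a2 ?_
  filter_upwards [Ioo_mem_nhdsGT (zero_lt_one (α := ℝ))] with t ht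
  exact h t ht

end

end Vale.Agent.P224.SMH
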