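import Vale.Agent.P224.SM2.Lim

/-!
Comparison lemmas for the coefficient functions `e` and `r` (even dimension `m = 2 a`): polynomial
sub- and supersolutions of the differential equations.
-/

namespace Vale.Agent.P224.SMH

open Set Filter Function Real
open scoped Topology
open Vale.Agent.P224.SM2

/-- a nonincreasing function on `(0, 1)` with limit zero at `1` is nonnegative -/
lemma nonneg_of_deriv_nonpos {φ φ' : ℝ → ℝ} (hd : ∀ T ∈ Ioo (0 : ℝ) 1, HasDerivAt φ (φ' T) T)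
    (hneg : ∀ T ∈ Ioo (0 : ℝ) 1, φ' T ≤ 0)
    (hlim : Tendsto (fun x => φ (sin x)) (𝓝[<] (π / 2)) (𝓝 0)) :
    ∀ T ∈ Ioo (0 : ℝ) 1, 0 ≤ φ T := by
  have hanti : AntitoneOn φ (Ioo 0 1) := by
    refine antitoneOn_of_deriv_nonpos (convex_Ioo 0 1)
      (fun T hT => (hd T hT).continuousAt.continuousWithinAt) ?_ ?_
    · rw [interior_Ioo]
      exact fun T hT => (hd T hT).differentiableAt.differentiableWithinAt
    · rw [interior_Ioo]
      intro T hT
      rw [(hd T hT).deriv]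
      exact hneg T hT
  intro T hT
  have hpi := pi_pos
  have h0 : ∀ᶠ x in 𝓝[<] (π / 2), x ∈ Ioo 0 (π / 2) := Ioo_mem_nhdsLT (by positivity)
  have hsin : Tendsto (fun x => sin x) (𝓝[<] (π / 2)) (𝓝 1) := by
    have := (continuous_sin.tendsto (π / 2)).mono_left (nhdsWithin_le_nhds (s := Iio (π / 2)))
    rwa [sin_pi_div_two] at this
  have h1 : ∀ᶠ x in 𝓝[<] (π / 2), T < sin x := hsin.eventually (lt_mem_nhds hT.2)
  refine le_of_tendsto hlim ?_
  filter_upwards [h0, h1] with x hx hTx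
  have hc : 0 < cos x := cos_pos_of_mem_Ioo ⟨by linarith [hx.1], hx.2⟩
  have hs1 : sin x < 1 := by nlinarith [sin_sq_add_cos_sq x, sin_le_one x]
  exact hanti hT ⟨by linarith [hT.1], hs1⟩ hTx.le

/-- comparison for `e` -/
theorem e_cmp (a : ℕ) {e Z f f' : ℝ → ℝ}
    (he : ∀ T ∈ Ioo (0 : ℝ) 1, HasDerivAt e ((2 * a * e T / T - Z T) / 2) T)
    (hf : ∀ T ∈ Ioo (0 : ℝ) 1, HasDerivAt f (f' T) T)
    (hres : ∀ T ∈ Ioo (0 : ℝ) 1, 0 ≤ 2 * T * f' T - 2 * a * f T + T * Z T)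
    (hlim : Tendsto (fun x => e (sin x) - f (sin x)) (𝓝[<] (π / 2)) (𝓝 0)) :
    ∀ T ∈ Ioo (0 : ℝ) 1, f T ≤ e T := by
  have hd : ∀ T ∈ Ioo (0 : ℝ) 1, HasDerivAt (fun T => (e T - f T) * (T ^ a)⁻¹)
      (-(2 * T * f' T - 2 * a * f T + T * Z T) / (2 * T ^ (a + 1))) T := by
    intro T hT
    have hT0 : T ≠ 0 := hT.1.ne'
    have h1 := ((he T hT).fun_sub (hf T hT)).fun_mul
      ((hasDerivAt_pow a T).fun_inv (pow_ne_zero a hT0))
    refine h1.congr_deriv ?_
    rcases a with _ | a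
    · simp
      field_simp
      ring
    · rw [Nat.add_sub_cancel]
      push_cast
      field_simp
      ring
  have key := nonneg_of_deriv_nonpos hd (fun T hT => by
    have := hres T hT
    have h2 : 0 < 2 * T ^ (a + 1) := by
      have := hT.1
      positivity
    exact div_nonpos_of_nonpos_of_nonneg (by linarith) h2.le) ?_
  · intro T hT
    have h1 := key T hT
    have h2 : 0 < (T ^ a)⁻¹ := inv_pos.2 (pow_pos hT.1 a)
    have h3 : 0 ≤ e T - f T := nonneg_of_mul_nonneg_left h1 h2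
    linarith
  · have hsin : Tendsto (fun x => sin x) (𝓝[<] (π / 2)) (𝓝 1) := by
      have := (continuous_sin.tendsto (π / 2)).mono_left (nhdsWithin_le_nhds (s := Iio (π / 2)))
      rwa [sin_pi_div_two] at this
    have h2 := hlim.mul ((hsin.pow a).inv₀ (by simp))
    simpa using h2

/-- comparison for `r` -/
theorem r_cmp (b : ℕ) {e r f f' g : ℝ → ℝ}
    (hr : ∀ T ∈ Ioo (0 : ℝ) 1, HasDerivAt r (-(e T / T + 2 * b * T * r T) / (1 - T ^ 2)) T)
    (hf : ∀ T ∈ Ioo (0 : ℝ) 1, HasDerivAt f (f' T) T)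
    (hg : ∀ T ∈ Ioo (0 : ℝ) 1, g T * T ≤ e T)
    (hres : ∀ T ∈ Ioo (0 : ℝ) 1, 0 ≤ g T + 2 * b * T * f T + (1 - T ^ 2) * f' T)
    (hlim : Tendsto (fun x => (r (sin x) - f (sin x)) / cos x ^ (2 * b)) (𝓝[<] (π / 2)) (𝓝 0)) :
    ∀ T ∈ Ioo (0 : ℝ) 1, f T ≤ r T := by
  have hd : ∀ T ∈ Ioo (0 : ℝ) 1, HasDerivAt (fun T => (r T - f T) * ((1 - T ^ 2) ^ b)⁻¹)
      (-(e T / T + 2 * b * T * f T + (1 - T ^ 2) * f' T) / (1 - T ^ 2) ^ (b + 1)) T := by
    intro T hT
    have hT0 : T ≠ 0 := hT.1.ne'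
    have hk : 1 - T ^ 2 ≠ 0 := by nlinarith [hT.1, hT.2]
    have h0 : HasDerivAt (fun T : ℝ => 1 - T ^ 2) (-(2 * T)) T := by
      simpa using (hasDerivAt_pow 2 T).const_sub 1
    have h1 := ((hr T hT).fun_sub (hf T hT)).fun_mul
      ((h0.fun_pow b).fun_inv (pow_ne_zero b hk))
    refine h1.congr_deriv ?_
    rcases b with _ | b
    · simp
      field_simp
      ring
    · rw [Nat.add_sub_cancel]
      push_cast
      field_simp
      ring
  have key := nonneg_of_deriv_nonpos hd (fun T hT => by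
    have h1 := hres T hT
    have hk : 0 < 1 - T ^ 2 := by nlinarith [hT.1, hT.2]
    have h2 : g T ≤ e T / T := by
      rw [le_div_iff₀ hT.1]
      exact hg T hT
    exact div_nonpos_of_nonpos_of_nonneg (by linarith) (pow_pos hk _).le) ?_
  · intro T hT
    have h1 := key T hT
    have hk : 0 < 1 - T ^ 2 := by nlinarith [hT.1, hT.2]
    have h2 : 0 < ((1 - T ^ 2) ^ b)⁻¹ := inv_pos.2 (pow_pos hk b)
    have h3 : 0 ≤ r T - f T := nonneg_of_mul_nonneg_left h1 h2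
    linarith
  · refine hlim.congr fun x => ?_
    have e1 : 1 - sin x ^ 2 = cos x ^ 2 := by linarith [sin_sq_add_cos_sq x]
    rw [e1, ← pow_mul, div_eq_mul_inv]

/-- the form of the sub- and supersolutions for `e` -/
noncomputable def eB (a : ℕ) (P : ℝ → ℝ) (T : ℝ) : ℝ := T * (1 - T) ^ (a + 1) * P T

/-- the form of the sub- and supersolutions for `r` -/
noncomputable def rB (a : ℕ) (P : ℝ → ℝ) (T : ℝ) : ℝ := (1 - T) ^ (a + 1) * P T

section

variable {a : ℕ} {y Z e r P P' Q Q' : ℝ → ℝ} {lam : ℝ}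

lemma hasDerivAt_eB {T : ℝ} (hP : HasDerivAt P (P' T) T) :
    HasDerivAt (eB a P)
      ((1 - T) ^ a * ((1 - T) * P T - (a + 1) * T * P T + T * (1 - T) * P' T)) T := by
  have h0 : HasDerivAt (fun T : ℝ => 1 - T) (-1) T := by
    simpa using (hasDerivAt_id T).const_sub 1
  have h1 := ((hasDerivAt_id T).fun_mul (h0.fun_pow (a + 1))).fun_mul hP
  refine h1.congr_deriv ?_
  simp only [id_eq, Nat.add_sub_cancel]
  push_cast
  ring

lemma hasDerivAt_rB {T : ℝ} (hP : HasDerivAt P (P' T) T) :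
    HasDerivAt (rB a P) ((1 - T) ^ a * ((1 - T) * P' T - (a + 1) * P T)) T := by
  have h0 : HasDerivAt (fun T : ℝ => 1 - T) (-1) T := by
    simpa using (hasDerivAt_id T).const_sub 1
  have h1 := (h0.fun_pow (a + 1)).fun_mul hP
  refine h1.congr_deriv ?_
  simp only [Nat.add_sub_cancel]
  push_cast
  ring

lemma tendsto_sin_one : Tendsto (fun x => sin x) (𝓝[<] (π / 2)) (𝓝 1) := by
  have := (continuous_sin.tendsto (π / 2)).mono_left (nhdsWithin_le_nhds (s := Iio (π / 2)))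
  rwa [sin_pi_div_two] at this

lemma lim_e (hl : CertLim (2 * a) y Z e r lam) (hP : Continuous P) :
    Tendsto (fun x => e (sin x) - eB a P (sin x)) (𝓝[<] (π / 2)) (𝓝 0) := by
  have hcos : Tendsto (fun x => cos x) (𝓝[<] (π / 2)) (𝓝 0) := by
    have := (continuous_cos.tendsto (π / 2)).mono_left (nhdsWithin_le_nhds (s := Iio (π / 2)))
    rwa [cos_pi_div_two] at this
  have hpi := pi_pos
  have h0 : ∀ᶠ x in 𝓝[<] (π / 2), x ∈ Ioo 0 (π / 2) := Ioo_mem_nhdsLT (by positivity)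
  have h1 : Tendsto (fun x => e (sin x)) (𝓝[<] (π / 2)) (𝓝 0) := by
    have h2 := hl.le.mul (hcos.pow (2 * a))
    rw [zero_mul] at h2
    refine h2.congr' ?_
    filter_upwards [h0] with x hx
    have hc : 0 < cos x := cos_pos_of_mem_Ioo ⟨by linarith [hx.1], hx.2⟩
    rw [div_mul_cancel₀ _ (pow_pos hc _).ne']
  have h3 : Tendsto (fun x => eB a P (sin x)) (𝓝[<] (π / 2)) (𝓝 0) := by
    have hc : Continuous (eB a P) := by unfold eB; fun_prop
    have := (hc.tendsto 1).comp tendsto_sin_one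
    have e1 : eB a P 1 = 0 := by unfold eB; simp
    rwa [e1] at this
  simpa using h1.sub h3

lemma lim_r {b : ℕ} (hl : CertLim (2 * (b + 1)) y Z e r lam) (hP : Continuous P) :
    Tendsto (fun x => (r (sin x) - rB (b + 1) P (sin x)) / cos x ^ (2 * b)) (𝓝[<] (π / 2))
      (𝓝 0) := by
  have hpi := pi_pos
  have h0 : ∀ᶠ x in 𝓝[<] (π / 2), x ∈ Ioo 0 (π / 2) := Ioo_mem_nhdsLT (by positivity)
  have h1s : Tendsto (fun x => 1 - sin x) (𝓝[<] (π / 2)) (𝓝 0) := by
    have := tendsto_sin_one.const_sub 1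
    rwa [sub_self] at this
  have h1 := hl.lr.mul h1s
  have h2 : Tendsto (fun x => (1 - sin x) ^ 2 * P (sin x) * ((1 + sin x) ^ b)⁻¹)
      (𝓝[<] (π / 2)) (𝓝 0) := by
    have a1 := ((h1s.pow 2).mul ((hP.tendsto 1).comp tendsto_sin_one)).mul
      (((tendsto_sin_one.const_add 1).pow b).inv₀ (by positivity))
    simpa using a1
  have h3 := h1.sub h2
  rw [zero_mul, sub_zero] at h3
  refine h3.congr' ?_
  filter_upwards [h0] with x hx
  have hc : 0 < cos x := cos_pos_of_mem_Ioo ⟨by linarith [hx.1], hx.2⟩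
  have hs0 : 0 < sin x := sin_pos_of_pos_of_lt_pi hx.1 (by linarith [hx.2])
  have hs1 : sin x < 1 := by nlinarith [sin_sq_add_cos_sq x, sin_le_one x]
  have e1 : cos x ^ (2 * b) = (1 - sin x) ^ b * (1 + sin x) ^ b := by
    rw [pow_mul, ← mul_pow]
    congr 1
    linarith [sin_sq_add_cos_sq x]
  have a1 : 1 - sin x ≠ 0 := by linarith
  have a2 : 1 + sin x ≠ 0 := by linarith
  have a3 := pow_ne_zero b a1
  have a4 := pow_ne_zero b a2
  rw [show 2 * (b + 1) - 2 = 2 * b by omega, e1]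
  unfold rB
  field_simp
  ring

/-- lower bound of `e` in the form `T (1 - T) ^ (a + 1) P` -/
theorem eB_le (hc : Cert (2 * a) y Z e r) (hl : CertLim (2 * a) y Z e r lam) (hPc : Continuous P)
    (hP : ∀ T, HasDerivAt P (P' T) T) {ζ : ℝ → ℝ}
    (hZ : ∀ T ∈ Ioo (0 : ℝ) 1, (1 - T) ^ a * ζ T ≤ Z T)
    (hres : ∀ T ∈ Ioo (0 : ℝ) 1,
      0 ≤ ζ T - ((2 * a - 2) * (1 - T) + (2 * a + 2) * T) * P T + 2 * (1 - T) * T * P' T) :
    ∀ T ∈ Ioo (0 : ℝ) 1, eB a P T ≤ e T := by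
  refine e_cmp a (Z := Z) ?_ (fun T hT => hasDerivAt_eB (hP T)) ?_ (lim_e hl hPc)
  · intro T hT
    refine (hc.he T hT).congr_deriv ?_
    push_cast
    ring
  · intro T hT
    have h1 := hres T hT
    have h2 : 0 ≤ T * (1 - T) ^ a := mul_nonneg hT.1.le (pow_nonneg (by linarith [hT.2]) a)
    have h3 := mul_nonneg h2 h1
    have h4 := mul_le_mul_of_nonneg_left (hZ T hT) hT.1.le
    unfold eB
    rw [pow_succ]
    nlinarith [h3, h4]

/-- upper bound of `e` -/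
theorem le_eB (hc : Cert (2 * a) y Z e r) (hl : CertLim (2 * a) y Z e r lam) (hPc : Continuous P)
    (hP : ∀ T, HasDerivAt P (P' T) T) {ζ : ℝ → ℝ}
    (hZ : ∀ T ∈ Ioo (0 : ℝ) 1, Z T ≤ (1 - T) ^ a * ζ T)
    (hres : ∀ T ∈ Ioo (0 : ℝ) 1,
      0 ≤ ((2 * a - 2) * (1 - T) + (2 * a + 2) * T) * P T - 2 * (1 - T) * T * P' T - ζ T) :
    ∀ T ∈ Ioo (0 : ℝ) 1, e T ≤ eB a P T := by
  have key := e_cmp a (Z := fun T => -Z T) (e := fun T => -e T) (f := fun T => -eB a P T)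
    (f' := fun T => -((1 - T) ^ a * ((1 - T) * P T - (a + 1) * T * P T + T * (1 - T) * P' T)))
    ?_ (fun T hT => (hasDerivAt_eB (hP T)).fun_neg) ?_ ?_
  · intro T hT
    have := key T hT
    linarith
  · intro T hT
    refine (hc.he T hT).fun_neg.congr_deriv ?_
    push_cast
    ring
  · intro T hT
    have h1 := hres T hT
    have h2 : 0 ≤ T * (1 - T) ^ a := mul_nonneg hT.1.le (pow_nonneg (by linarith [hT.2]) a)
    have h3 := mul_nonneg h2 h1
    have h4 := mul_le_mul_of_nonneg_left (hZ T hT) hT.1.le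
    unfold eB
    rw [pow_succ]
    nlinarith [h3, h4]
  · have := (lim_e hl hPc).neg
    rw [neg_zero] at this
    refine this.congr fun x => ?_
    ring

/-- lower bound of `r` in the form `(1 - T) ^ (a + 1) Q`, `a = b + 1` -/
theorem rB_le {b : ℕ} (hc : Cert (2 * (b + 1)) y Z e r) (hl : CertLim (2 * (b + 1)) y Z e r lam)
    (hQc : Continuous Q) (hQ : ∀ T, HasDerivAt Q (Q' T) T)
    (he : ∀ T ∈ Ioo (0 : ℝ) 1, eB (b + 1) P T ≤ e T)
    (hres : ∀ T ∈ Ioo (0 : ℝ) 1,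
      0 ≤ P T - (b + 2) * (1 + T) * Q T + (1 - T ^ 2) * Q' T + 2 * b * T * Q T) :
    ∀ T ∈ Ioo (0 : ℝ) 1, rB (b + 1) Q T ≤ r T := by
  refine r_cmp b (e := e) (g := fun T => (1 - T) ^ (b + 2) * P T) ?_
    (fun T hT => hasDerivAt_rB (hQ T)) ?_ ?_ (lim_r hl hQc)
  · intro T hT
    refine (hc.hr T hT).congr_deriv ?_
    push_cast
    ring
  · intro T hT
    refine le_trans (le_of_eq ?_) (he T hT)
    unfold eB
    ring
  · intro T hT
    have h1 := hres T hT
    have h2 : 0 ≤ (1 - T) ^ (b + 2) := pow_nonneg (by linarith [hT.2]) _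
    have h3 := mul_nonneg h2 h1
    unfold rB
    refine h3.trans (le_of_eq ?_)
    push_cast
    ring

/-- upper bound of `r` -/
theorem le_rB {b : ℕ} (hc : Cert (2 * (b + 1)) y Z e r) (hl : CertLim (2 * (b + 1)) y Z e r lam)
    (hQc : Continuous Q) (hQ : ∀ T, HasDerivAt Q (Q' T) T)
    (he : ∀ T ∈ Ioo (0 : ℝ) 1, e T ≤ eB (b + 1) P T)
    (hres : ∀ T ∈ Ioo (0 : ℝ) 1,
      0 ≤ (b + 2) * (1 + T) * Q T - (1 - T ^ 2) * Q' T - 2 * b * T * Q T - P T) :
    ∀ T ∈ Ioo (0 : ℝ) 1, r T ≤ rB (b + 1) Q T := by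
  have key := r_cmp b (e := fun T => -e T) (r := fun T => -r T) (f := fun T => -rB (b + 1) Q T)
    (f' := fun T => -((1 - T) ^ (b + 1) * ((1 - T) * Q' T - (((b + 1 : ℕ) : ℝ) + 1) * Q T)))
    (g := fun T => -((1 - T) ^ (b + 2) * P T)) ?_
    (fun T hT => (hasDerivAt_rB (hQ T)).fun_neg) ?_ ?_ ?_
  · intro T hT
    have := key T hT
    linarith
  · intro T hT
    refine (hc.hr T hT).fun_neg.congr_deriv ?_
    push_cast
    ring
  · intro T hT
    have h1 := he T hT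
    unfold eB at h1
    have e1 : -((1 - T) ^ (b + 2) * P T) * T = -(T * (1 - T) ^ (b + 1 + 1) * P T) := by ring
    rw [e1]
    linarith
  · intro T hT
    have h1 := hres T hT
    have h2 : 0 ≤ (1 - T) ^ (b + 2) := pow_nonneg (by linarith [hT.2]) _
    have h3 := mul_nonneg h2 h1
    unfold rB
    refine h3.trans (le_of_eq ?_)
    push_cast
    ring
  · have := (lim_r hl hQc).neg
    rw [neg_zero] at this
    refine this.congr fun x => ?_
    rw [← neg_div]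
    congr 1
    ring

end

end Vale.Agent.P224.SMH
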