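import Vale.Agent.P224.SMH.Cmp

/-!
Comparison lemma for the coefficient function `Z` (even dimension `m = 2 (b + 1)`).
-/

namespace Vale.Agent.P224.SMH

open Set Filter Function Real
open scoped Topology
open Vale.Agent.P224.SM2

/-- comparison for `Z` -/
theorem z_cmp (a : ℕ) {y Z f f' : ℝ → ℝ}
    (hZ : ∀ T ∈ Ioo (0 : ℝ) 1, HasDerivAt Z (a / T * (Z T - y T)) T)
    (hf : ∀ T ∈ Ioo (0 : ℝ) 1, HasDerivAt f (f' T) T)
    (hres : ∀ T ∈ Ioo (0 : ℝ) 1, 0 ≤ a * y T - a * f T + T * f' T)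
    (hlim : Tendsto (fun x => Z (sin x) - f (sin x)) (𝓝[<] (π / 2)) (𝓝 0)) :
    ∀ T ∈ Ioo (0 : ℝ) 1, f T ≤ Z T := by
  have hd : ∀ T ∈ Ioo (0 : ℝ) 1, HasDerivAt (fun T => (Z T - f T) * (T ^ a)⁻¹)
      (-(a * y T - a * f T + T * f' T) / T ^ (a + 1)) T := by
    intro T hT
    have hT0 : T ≠ 0 := hT.1.ne'
    have h1 := ((hZ T hT).fun_sub (hf T hT)).fun_mul
      ((hasDerivAt_pow a T).fun_inv (pow_ne_zero a hT0))
    refine h1.congr_deriv ?_
    rcases a with _ | a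
    · simp
      field_simp
    · rw [Nat.add_sub_cancel]
      push_cast
      field_simp
      ring
  have key := nonneg_of_deriv_nonpos hd (fun T hT => by
    have := hres T hT
    have h2 : 0 < T ^ (a + 1) := pow_pos hT.1 _
    exact div_nonpos_of_nonpos_of_nonneg (by linarith) h2.le) ?_
  · intro T hT
    have h1 := key T hT
    have h2 : 0 < (T ^ a)⁻¹ := inv_pos.2 (pow_pos hT.1 a)
    have h3 : 0 ≤ Z T - f T := nonneg_of_mul_nonneg_left h1 h2
    linarith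
  · have h2 := hlim.mul ((tendsto_sin_one.pow a).inv₀ (by simp))
    simpa using h2

section

variable {b : ℕ} {y Z e r P P' Q : ℝ → ℝ} {lam : ℝ}

lemma hasDerivAt_zB {T : ℝ} (hP : HasDerivAt P (P' T) T) :
    HasDerivAt (rB b P) ((1 - T) ^ b * ((1 - T) * P' T - (b + 1) * P T)) T := hasDerivAt_rB hP

lemma lim_z (hl : CertLim (2 * (b + 1)) y Z e r lam) (hP : Continuous P) :
    Tendsto (fun x => Z (sin x) - rB b P (sin x)) (𝓝[<] (π / 2)) (𝓝 0) := by
  have hcos : Tendsto (fun x => cos x) (𝓝[<] (π / 2)) (𝓝 0) := by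
    have := (continuous_cos.tendsto (π / 2)).mono_left (nhdsWithin_le_nhds (s := Iio (π / 2)))
    rwa [cos_pi_div_two] at this
  have hpi := pi_pos
  have h0 : ∀ᶠ x in 𝓝[<] (π / 2), x ∈ Ioo 0 (π / 2) := Ioo_mem_nhdsLT (by positivity)
  obtain ⟨C, hC⟩ := hl.lZ
  have h1 : Tendsto (fun x => Z (sin x)) (𝓝[<] (π / 2)) (𝓝 0) := by
    have h2 : Tendsto (fun x => C * cos x ^ (2 * (b + 1))) (𝓝[<] (π / 2)) (𝓝 0) := by
      have := (hcos.pow (2 * (b + 1))).const_mul C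
      simpa using this
    refine squeeze_zero_norm' ?_ h2
    filter_upwards [h0, hC] with x hx hx2
    have hc : 0 < cos x := cos_pos_of_mem_Ioo ⟨by linarith [hx.1], hx.2⟩
    have hc2 := pow_pos hc (2 * (b + 1))
    rw [abs_div, abs_of_pos hc2, div_le_iff₀ hc2] at hx2
    rw [Real.norm_eq_abs]
    exact hx2
  have h3 : Tendsto (fun x => rB b P (sin x)) (𝓝[<] (π / 2)) (𝓝 0) := by
    have hc : Continuous (rB b P) := by unfold rB; fun_prop
    have := (hc.tendsto 1).comp tendsto_sin_one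
    have e1 : rB b P 1 = 0 := by unfold rB; simp
    rwa [e1] at this
  simpa using h1.sub h3

/-- lower bound of `Z` in the form `(1 - T) ^ (b + 1) P`, from the lower bound
`(1 - T) ^ b Q` of `y` -/
theorem zB_le (hc : Cert (2 * (b + 1)) y Z e r) (hl : CertLim (2 * (b + 1)) y Z e r lam)
    (hPc : Continuous P) (hP : ∀ T, HasDerivAt P (P' T) T)
    (hy : ∀ T ∈ Ioo (0 : ℝ) 1, (1 - T) ^ b * Q T ≤ y T)
    (hres : ∀ T ∈ Ioo (0 : ℝ) 1, 0 ≤ (b + 1) * Q T - (b + 1) * P T + T * (1 - T) * P' T) :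
    ∀ T ∈ Ioo (0 : ℝ) 1, (1 - T) ^ (b + 1) * P T ≤ Z T := by
  have key := z_cmp (b + 1) (y := y) (Z := Z) (f := rB b P) ?_
    (fun T hT => hasDerivAt_zB (hP T)) ?_ (lim_z hl hPc)
  · exact key
  · intro T hT
    refine (hc.hZ T hT).congr_deriv ?_
    push_cast
    field_simp
  · intro T hT
    have h1 := hres T hT
    have h2 : 0 ≤ (1 - T) ^ b := pow_nonneg (by linarith [hT.2]) b
    have h3 := mul_nonneg h2 h1
    have h4 := mul_le_mul_of_nonneg_left (hy T hT) (by positivity : (0 : ℝ) ≤ (b : ℝ) + 1)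
    unfold rB
    rw [pow_succ]
    push_cast
    nlinarith [h3, h4]

/-- upper bound of `Z` -/
theorem le_zB (hc : Cert (2 * (b + 1)) y Z e r) (hl : CertLim (2 * (b + 1)) y Z e r lam)
    (hPc : Continuous P) (hP : ∀ T, HasDerivAt P (P' T) T)
    (hy : ∀ T ∈ Ioo (0 : ℝ) 1, y T ≤ (1 - T) ^ b * Q T)
    (hres : ∀ T ∈ Ioo (0 : ℝ) 1, 0 ≤ (b + 1) * P T - (b + 1) * Q T - T * (1 - T) * P' T) :
    ∀ T ∈ Ioo (0 : ℝ) 1, Z T ≤ (1 - T) ^ (b + 1) * P T := by
  have key := z_cmp (b + 1) (y := fun T => -y T) (Z := fun T => -Z T) (f := fun T => -rB b P T)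
    (f' := fun T => -((1 - T) ^ b * ((1 - T) * P' T - (b + 1) * P T)))
    ?_ (fun T hT => (hasDerivAt_zB (hP T)).fun_neg) ?_ ?_
  · intro T hT
    have := key T hT
    unfold rB at this
    linarith
  · intro T hT
    refine (hc.hZ T hT).fun_neg.congr_deriv ?_
    push_cast
    field_simp
    ring
  · intro T hT
    have h1 := hres T hT
    have h2 : 0 ≤ (1 - T) ^ b := pow_nonneg (by linarith [hT.2]) b
    have h3 := mul_nonneg h2 h1
    have h4 := mul_le_mul_of_nonneg_left (hy T hT) (by positivity : (0 : ℝ) ≤ (b : ℝ) + 1)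
    unfold rB
    rw [pow_succ]
    push_cast
    nlinarith [h3, h4]
  · have := (lim_z hl hPc).neg
    rw [neg_zero] at this
    refine this.congr fun x => ?_
    ring

end

end Vale.Agent.P224.SMH
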