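import Vale.Agent.P224.SM2.Cst

/-!
The certificate of the static part in even dimension, with its values at the two ends.
-/

namespace Vale.Agent.P224.SMH

open Set Filter Function Real
open scoped Topology
open Vale.Agent.P224 Vale.Agent.P224.SM2

/-- the certificate in dimension `2 * h`, for the function `y` with the right value at zero -/
theorem exists_cert_even {h : ℕ} (h2 : 2 ≤ h) (h8 : h ≤ 8) {c : ℝ}
    (hc : c * II (((2 * h : ℕ) : ℝ) / 2) 0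
      = (((2 * h : ℕ) : ℝ) - 1) / (((2 * h : ℕ) : ℝ) - 2)) :
    ∃ Z e r : ℝ → ℝ, Cert (2 * h) (yF (((2 * h : ℕ) : ℝ) / 2) c) Z e r ∧
      CertLim (2 * h) (yF (((2 * h : ℕ) : ℝ) / 2) c) Z e r (evenRatio h / 2) ∧
      yF (((2 * h : ℕ) : ℝ) / 2) c 0 = (((2 * h : ℕ) : ℝ) - 1) / (((2 * h : ℕ) : ℝ) - 2) ∧
      Z 0 = (((2 * h : ℕ) : ℝ) - 1) / (((2 * h : ℕ) : ℝ) - 2) ∧ e 0 = 0 := by
  have h4 : 4 ≤ 2 * h := by omega
  have hm4 : (4 : ℝ) ≤ ((2 * h : ℕ) : ℝ) := by exact_mod_cast h4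
  have ha : (2 : ℝ) ≤ ((2 * h : ℕ) : ℝ) / 2 := by linarith
  have hI := II_pos ha 0
  have hc0 : 0 ≤ c := by
    have h1 : 0 ≤ (((2 * h : ℕ) : ℝ) - 1) / (((2 * h : ℕ) : ℝ) - 2) :=
      div_nonneg (by linarith) (by linarith)
    rw [← hc] at h1
    exact nonneg_of_mul_nonneg_left h1 hI
  refine ⟨ZF (((2 * h : ℕ) : ℝ) / 2) c, eF (((2 * h : ℕ) : ℝ) / 2) c,
    rF (((2 * h : ℕ) : ℝ) / 2) c, certF h4 (by omega) hc0, ?_, ?_, ?_, eF_zero ha⟩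
  · have h1 := certLimF (c := c) h4 hc0
    have h5 := lam_eq h h2
    rw [← hc] at h5
    have e : c * II (((2 * h : ℕ) : ℝ) / 2) 1 = evenRatio h / 2 := by
      rw [← h5]
      field_simp
    rwa [e] at h1
  · unfold yF
    rw [show (1 : ℝ) - 0 ^ 2 = 1 by norm_num, one_rpow, one_mul]
    exact hc
  · unfold ZF
    rw [show (1 : ℝ) - 0 ^ 2 = 1 by norm_num, one_rpow, Jc_zero, one_mul]
    exact hc

/-- the certificate in dimension `2 * h` -/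
theorem exists_cert_even' {h : ℕ} (h2 : 2 ≤ h) (h8 : h ≤ 8) :
    ∃ y Z e r : ℝ → ℝ, Cert (2 * h) y Z e r ∧ CertLim (2 * h) y Z e r (evenRatio h / 2) ∧
      y 0 = (((2 * h : ℕ) : ℝ) - 1) / (((2 * h : ℕ) : ℝ) - 2) ∧
      Z 0 = (((2 * h : ℕ) : ℝ) - 1) / (((2 * h : ℕ) : ℝ) - 2) ∧ e 0 = 0 := by
  have h4 : 4 ≤ 2 * h := by omega
  have hm4 : (4 : ℝ) ≤ ((2 * h : ℕ) : ℝ) := by exact_mod_cast h4
  have ha : (2 : ℝ) ≤ ((2 * h : ℕ) : ℝ) / 2 := by linarith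
  have hI := II_pos ha 0
  obtain ⟨Z, e, r, h1, h3, h5, h6, h7⟩ := exists_cert_even h2 h8
    (c := (((2 * h : ℕ) : ℝ) - 1) / (((2 * h : ℕ) : ℝ) - 2) / II (((2 * h : ℕ) : ℝ) / 2) 0)
    (div_mul_cancel₀ _ hI.ne')
  exact ⟨_, Z, e, r, h1, h3, h5, h6, h7⟩

lemma II_zero_three : II (((2 * 3 : ℕ) : ℝ) / 2) 0 = 1 / 3 := by
  rw [II_zero_eq 1 (by norm_num) (fun θ => -(cos θ ^ 3 / 3)) ?_]
  · simp only [cos_zero, cos_pi_div_two]
    norm_num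
  · intro θ
    refine (((hcos_pow 2 θ).div_const 3).fun_neg).congr_deriv ?_
    push_cast
    ring

lemma II_zero_five : II (((2 * 5 : ℕ) : ℝ) / 2) 0 = 2 / 35 := by
  rw [II_zero_eq 3 (by norm_num) (fun θ => cos θ ^ 7 / 7 - cos θ ^ 5 / 5) ?_]
  · simp only [cos_zero, cos_pi_div_two]
    norm_num
  · intro θ
    refine (((hcos_pow 6 θ).div_const 7).fun_sub ((hcos_pow 4 θ).div_const 5)).congr_deriv ?_
    have h2 := sin_sq_add_cos_sq θ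
    have h3 : sin θ ^ 3 = sin θ * (1 - cos θ ^ 2) := by
      rw [← h2]; ring
    rw [h3]
    push_cast
    ring

end Vale.Agent.P224.SMH
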