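import Vale.Agent.P224.SMH.B10
import Vale.Agent.P224.SMH.PlugE
import Vale.Agent.P224.SH.Chk10
import Vale.Agent.P224.SH.Yser10
import Vale.Agent.P224.POS.EOk

/-!
The data of the static part in dimension 10.
-/

namespace Vale.Agent.P224.SMH

open Set
open Vale.Agent.P224.SM2 Vale.Agent.P224.POS

/-- **The bounds of the coefficient functions.** -/
theorem bds10 {Z e r : ℝ → ℝ} {lam : ℝ} (hc : Cert 10 (yF 5 (315 / 16)) Z e r)
    (hl : CertLim 10 (yF 5 (315 / 16)) Z e r lam) {T : ℝ} (hT : T ∈ Ioo (0 : ℝ) 1) :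
    SH.Bds SH.BD10 T (yF 5 (315 / 16) T) (e T) (r T) where
  y := by
    have h := SH.y10_low ⟨hT.1.le, hT.2.le⟩
    simp only [SH.YL10, SH.pv] at h
    simp only [SH.BD10, SH.pv]
    push_cast at h ⊢
    linarith
  el := by
    have h := B10.el hc hl (fun T hT => SH.y10_low ⟨hT.1.le, hT.2.le⟩) T hT
    simp only [pd, B10.Lel, SH.pv] at h
    simp only [SH.BD10, SH.pv]
    push_cast at h ⊢
    linarith
  eu := by
    have h := B10.eu hc hl (fun T hT => SH.y10_up ⟨hT.1.le, hT.2.le⟩) T hT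
    simp only [pd, B10.Leu, SH.pv] at h
    simp only [SH.BD10, SH.pv]
    push_cast at h ⊢
    linarith
  rl := by
    have h := B10.rl hc hl (fun T hT => SH.y10_low ⟨hT.1.le, hT.2.le⟩) T hT
    simp only [pd, B10.Lrl, SH.pv] at h
    simp only [SH.BD10, SH.pv]
    push_cast at h ⊢
    linarith
  ru := by
    have h := B10.ru hc hl (fun T hT => SH.y10_up ⟨hT.1.le, hT.2.le⟩) T hT
    simp only [pd, B10.Lru, SH.pv] at h
    simp only [SH.BD10, SH.pv]
    push_cast at h ⊢
    linarith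

/-- **The data of the static part in dimension 10.** -/
theorem eok10 : EOk (2 * 5) (evenRatio 5) (5195 / 10000) SH.HD10 := by
  obtain ⟨Z, e, r, hc, hl, h0, h1, he⟩ := exists_cert_even (h := 5) (by norm_num) (by norm_num)
    (c := 315 / 16) (by
      rw [II_zero_five]
      norm_num)
  have ha : ((2 * 5 : ℕ) : ℝ) / 2 = 5 := by norm_num
  rw [ha] at hc hl h0
  refine ⟨yF 5 (315 / 16), Z, e, r, evenRatio 5 / 2, by
    have := evenRatio_pos 5
    positivity, by ring, hc, hl, h0, h1, he, ?_, fun T hT k hk =>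
    SH.le_FKK SH.okK10 hT (bds10 hc hl hT) hk⟩
  have := B10.r_zero hc hl (fun T hT => SH.y10_up0 ⟨hT.1.le, hT.2.le⟩)
  push_cast at this ⊢
  linarith

end Vale.Agent.P224.SMH
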