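import Vale.Agent.P224.SMH.B12
import Vale.Agent.P224.SH.Chk12
import Vale.Agent.P224.POS.EOk

/-!
The data of the static part in dimension 12.
-/

namespace Vale.Agent.P224.SMH

open Set
open Vale.Agent.P224.SM2 Vale.Agent.P224.POS

/-- **The bounds of the coefficient functions.** -/
theorem bds12 {y Z e r : ℝ → ℝ} {lam : ℝ} (hc : Cert 12 y Z e r) (hl : CertLim 12 y Z e r lam)
    (h0 : y 0 = 11 / 10) {T : ℝ} (hT : T ∈ Ioo (0 : ℝ) 1) :
    SH.Bds SH.BD12 T (y T) (e T) (r T) where
  y := by
    rw [(yZ12 hc hl h0 hT).1]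
    simp only [SH.BD12, SH.pv, P12]
    push_cast
    exact le_of_eq (by ring)
  el := by
    have h := B12.el hc hl h0 T hT
    simp only [pd, B12.Lel, SH.pv] at h
    simp only [SH.BD12, SH.pv]
    push_cast at h ⊢
    linarith
  eu := by
    have h := B12.eu hc hl h0 T hT
    simp only [pd, B12.Leu, SH.pv] at h
    simp only [SH.BD12, SH.pv]
    push_cast at h ⊢
    linarith
  rl := by
    have h := B12.rl hc hl h0 T hT
    simp only [pd, B12.Lrl, SH.pv] at h
    simp only [SH.BD12, SH.pv]
    push_cast at h ⊢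
    linarith
  ru := by
    have h := B12.ru hc hl h0 T hT
    simp only [pd, B12.Lru, SH.pv] at h
    simp only [SH.BD12, SH.pv]
    push_cast at h ⊢
    linarith

/-- **The data of the static part in dimension 12.** -/
theorem eok12 : EOk (2 * 6) (evenRatio 6) (5117 / 10000) SH.HD12 := by
  refine eok_of_all (h := 6) (by norm_num) (by norm_num) fun y Z e r lam hc hl h0 _ _ => ?_
  have h0' : y 0 = 11 / 10 := by
    rw [h0]
    norm_num
  refine ⟨?_, fun T hT k hk => SH.le_FKK SH.okK12 hT (bds12 hc hl h0' hT) hk⟩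
  have := B12.r_zero hc hl h0'
  push_cast at this ⊢
  linarith

end Vale.Agent.P224.SMH
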