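import Vale.Agent.P224.SMH.End4
import Vale.Agent.P224.SMH.E4
import Vale.Agent.P224.SH.HD4
import Vale.Agent.P224.POS.Lhs

/-!
The static inequality in dimension four.
-/

namespace Vale.Agent.P224.SMH

open MeasureTheory Set Filter Function Real Module Vale.Agent.P224 Vale.Agent.P224.SM2
open Vale.Agent.P224.UE Vale.Agent.P224.SH
open scoped Topology RealInnerProductSpace ContDiff Manifold

set_option linter.unusedSectionVars false

lemma F4_Lr : F4 POS.Lr := by
  intro d d' h0 h1 h2 h3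
  unfold POS.Lr
  rw [h0, h1, h2, h3]

lemma measurable_Lr : Measurable POS.Lr := by
  unfold POS.Lr
  fun_prop

section

variable {V W M : Type*} [NormedAddCommGroup V] [InnerProductSpace ℝ V] [FiniteDimensional ℝ V]
  [NormedAddCommGroup W] [InnerProductSpace ℝ W] [FiniteDimensional ℝ W]
  [TopologicalSpace M] [ChartedSpace V M]
  [MeasurableSpace V] [BorelSpace V] [MeasurableSpace M] [BorelSpace M]
  [MeasurableSpace W] [BorelSpace W]

/-- the static inequality in dimension four -/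
theorem static4_of [IsManifold 𝓘(ℝ, V) ∞ M] [CompactSpace M] [T2Space M]
    (hStat : Stat 4 y4 e4 r4 (Hd HD4) (Hd' HD4))
    (hV : finrank ℝ V = 4) (hW : finrank ℝ W = finrank ℝ V + 2) {F : M → W}
    (hF : SphImm V F) (hmin : ∀ x n, IsUnitNormal V F x n → meanCurv V F x n = 0)
    {N : M → W} (hNs : ContMDiff 𝓘(ℝ, V) 𝓘(ℝ, W) ∞ N) (hN : ∀ x, IsUnitNormal V F x (N x))
    (hinj : Injective F)
    (hdl : ∃ g : M × M → ℝ, Integrable g ((volM V F).prod (volM V F)) ∧
      (∀ T ∈ Ioo (0 : ℝ) 1, ∀ᵐ q ∂((volM V F).prod (volM V F)),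
        |Hd HD4 T (SM2.pr F N q)| ≤ g q) ∧
      ∀ᵐ q ∂((volM V F).prod (volM V F)), Tendsto (fun T => Hd HD4 T (SM2.pr F N q)) (𝓝[<] 1)
        (𝓝 (POS.Lr (r9 (SM2.pr F N q))))) (v : W) :
    Integrable (fun q => POS.Lr (dat F N v q)) ((volM V F).prod (volM V F)) ∧
      ∫ q, POS.Lr (dat F N v q) ∂((volM V F).prod (volM V F))
        + 3 / 2 * sphereVol 4 * (volM V F).real univ
      ≤ (volM V F).real univ ^ 2
        + (3 * Real.log 2 - 3 / 2) * ‖∫ x, N x ∂(volM V F)‖ ^ 2 := by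
  obtain ⟨g, hg, hdom, hlim⟩ := hdl
  have h4 : ((finrank ℝ V : ℕ) : ℝ) = 4 := by rw [hV]; norm_num
  have h := static_dat (y := y4) (Z := Z4) (e := e4) (r := r4) (lam := 3 / 4) (by omega) hW hF
    hmin hNs hN hinj (by norm_num) (by rw [hV]; exact cert4) (by rw [hV]; exact certLim4)
    (by rw [h4]; exact y4_zero) (by rw [h4]; exact Z4_zero) e4_zero
    (H := Hd HD4) (H' := Hd' HD4) (by rw [hV]; exact hStat) measurable_Lr F4_Lr hg hdom hlim v
  refine ⟨h.1, ?_⟩
  have h2 := h.2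
  rw [h4, r4_zero, hV] at h2
  linarith

end

end Vale.Agent.P224.SMH
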