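import Vale.Agent.P224.SMH.Cmp

/-!
Uniqueness of the coefficient functions `y`, `Z` (even dimension `m = 2 (b + 1)`): an explicit
solution of the two differential equations with the right behaviour at `T = 1` and the right value
at `T = 0` is the pair of the certificate.
-/

namespace Vale.Agent.P224.SMH

open Set Filter Function Real
open scoped Topology
open Vale.Agent.P224.SM2

lemma eq_of_deriv_zero {φ : ℝ → ℝ} (hd : ∀ T ∈ Ioo (0 : ℝ) 1, HasDerivAt φ 0 T) {s t : ℝ}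
    (hs : s ∈ Ioo (0 : ℝ) 1) (ht : t ∈ Ioo (0 : ℝ) 1) : φ s = φ t := by
  have hcont : ContinuousOn φ (Ioo 0 1) := fun T hT => (hd T hT).continuousAt.continuousWithinAt
  have hdiff : DifferentiableOn ℝ φ (interior (Ioo 0 1)) := by
    rw [interior_Ioo]
    exact fun T hT => (hd T hT).differentiableAt.differentiableWithinAt
  have h1 : AntitoneOn φ (Ioo 0 1) := by
    refine antitoneOn_of_deriv_nonpos (convex_Ioo 0 1) hcont hdiff ?_
    rw [interior_Ioo]
    intro T hT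
    rw [(hd T hT).deriv]
  have h2 : MonotoneOn φ (Ioo 0 1) := by
    refine monotoneOn_of_deriv_nonneg (convex_Ioo 0 1) hcont hdiff ?_
    rw [interior_Ioo]
    intro T hT
    rw [(hd T hT).deriv]
  rcases le_total s t with h | h
  · exact le_antisymm (h2 hs ht h) (h1 hs ht h)
  · exact le_antisymm (h1 ht hs h) (h2 ht hs h)

theorem cert_uniq {b : ℕ} {y Z e r P Q : ℝ → ℝ} {lam : ℝ} (hb : 1 ≤ b)
    (hc : Cert (2 * (b + 1)) y Z e r) (hl : CertLim (2 * (b + 1)) y Z e r lam)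
    (hPc : Continuous P) (hQc : Continuous Q) (hP0 : ∀ T ∈ Icc (0 : ℝ) 1, 0 < P T)
    (h0 : y 0 = P 0)
    (hy : ∀ T ∈ Ioo (0 : ℝ) 1, HasDerivAt (rB b Q) ((b + 1) / T * (rB b Q T - (1 - T) ^ b * P T)) T)
    (hZ : ∀ T ∈ Ioo (0 : ℝ) 1, HasDerivAt (fun T => (1 - T) ^ b * P T)
      ((rB b Q T - (1 - T) ^ b * P T - (2 * b - 1) * T ^ 2 * ((1 - T) ^ b * P T))
        / (T * (1 - T ^ 2))) T) :
    ∀ T ∈ Ioo (0 : ℝ) 1, y T = (1 - T) ^ b * P T ∧ Z T = (1 - T) ^ (b + 1) * Q T := by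
  have hpi := pi_pos
  set y2 : ℝ → ℝ := fun T => (1 - T) ^ b * P T with hy2
  set Z2 : ℝ → ℝ := rB b Q with hZ2
  have hy2pos : ∀ T ∈ Ioo (0 : ℝ) 1, 0 < y2 T := fun T hT =>
    mul_pos (pow_pos (by linarith [hT.2]) b) (hP0 T ⟨hT.1.le, hT.2.le⟩)
  have hyc : ∀ T ∈ Ioo (0 : ℝ) 1,
      HasDerivAt y ((Z T - y T - (2 * b - 1) * T ^ 2 * y T) / (T * (1 - T ^ 2))) T := by
    intro T hT
    refine (hc.hy T hT).congr_deriv ?_
    push_cast
    ring
  have hZc : ∀ T ∈ Ioo (0 : ℝ) 1, HasDerivAt Z ((b + 1) / T * (Z T - y T)) T := by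
    intro T hT
    refine (hc.hZ T hT).congr_deriv ?_
    push_cast
    field_simp
  have hwd : ∀ T ∈ Ioo (0 : ℝ) 1, HasDerivAt
      (fun T => (y T * Z2 T - Z T * y2 T) * (T ^ b * (1 - T ^ 2) ^ b)⁻¹) 0 T := by
    intro T hT
    have hT0 : T ≠ 0 := hT.1.ne'
    have hk : 1 - T ^ 2 ≠ 0 := by nlinarith [hT.1, hT.2]
    have h00 : HasDerivAt (fun T : ℝ => 1 - T ^ 2) (-(2 * T)) T := by
      simpa using (hasDerivAt_pow 2 T).const_sub 1
    have h1 := ((hyc T hT).fun_mul (hy T hT)).fun_sub ((hZc T hT).fun_mul (hZ T hT))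
    have h2 := h1.fun_mul (((hasDerivAt_pow b T).fun_mul (h00.fun_pow b)).fun_inv
      (mul_ne_zero (pow_ne_zero b hT0) (pow_ne_zero b hk)))
    refine h2.congr_deriv ?_
    obtain ⟨c, rfl⟩ : ∃ c, b = c + 1 := ⟨b - 1, by omega⟩
    rw [Nat.add_sub_cancel]
    push_cast
    simp only [hy2]
    field_simp
    ring
  have h0' : ∀ᶠ x in 𝓝[<] (π / 2), x ∈ Ioo 0 (π / 2) := Ioo_mem_nhdsLT (by positivity)
  have hcos : Tendsto (fun x => cos x) (𝓝[<] (π / 2)) (𝓝 0) := by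
    have := (continuous_cos.tendsto (π / 2)).mono_left (nhdsWithin_le_nhds (s := Iio (π / 2)))
    rwa [cos_pi_div_two] at this
  have hlimw : Tendsto (fun x => (fun T => (y T * Z2 T - Z T * y2 T) * (T ^ b * (1 - T ^ 2) ^ b)⁻¹)
      (sin x)) (𝓝[<] (π / 2)) (𝓝 0) := by
    have a1 : Tendsto (fun x => Z2 (sin x)) (𝓝[<] (π / 2)) (𝓝 0) := by
      have hcc : Continuous Z2 := by rw [hZ2]; unfold rB; fun_prop
      have := (hcc.tendsto 1).comp tendsto_sin_one
      have e1 : Z2 1 = 0 := by rw [hZ2]; unfold rB; simp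
      rwa [e1] at this
    have a2 : Tendsto (fun x => y2 (sin x)) (𝓝[<] (π / 2)) (𝓝 (y2 1)) := by
      have hcc : Continuous y2 := by rw [hy2]; fun_prop
      exact (hcc.tendsto 1).comp tendsto_sin_one
    have a3 : Tendsto (fun x => (sin x ^ b)⁻¹) (𝓝[<] (π / 2)) (𝓝 1) := by
      have := (tendsto_sin_one.pow b).inv₀ (by simp)
      simpa using this
    have a4 : Tendsto (fun x => Z (sin x) / cos x ^ (2 * b)) (𝓝[<] (π / 2)) (𝓝 0) := by
      obtain ⟨C, hC⟩ := hl.lZ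
      have h2 : Tendsto (fun x => C * cos x ^ 2) (𝓝[<] (π / 2)) (𝓝 0) := by
        have := (hcos.pow 2).const_mul C
        simpa using this
      refine squeeze_zero_norm' ?_ h2
      filter_upwards [h0', hC] with x hx hx2
      have hcx : 0 < cos x := cos_pos_of_mem_Ioo ⟨by linarith [hx.1], hx.2⟩
      have hc2 := pow_pos hcx (2 * b)
      have hc3 := pow_pos hcx 2
      rw [Real.norm_eq_abs]
      have e1 : Z (sin x) / cos x ^ (2 * b) = Z (sin x) / cos x ^ (2 * (b + 1)) * cos x ^ 2 := by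
        field_simp
        ring
      rw [e1, abs_mul, abs_of_pos hc3]
      exact mul_le_mul_of_nonneg_right hx2 hc3.le
    have a5 := hl.ly
    rw [show 2 * (b + 1) - 2 = 2 * b by omega] at a5
    have a6 := (((a5.mul a1).sub (a4.mul a2)).mul a3)
    rw [mul_zero, zero_mul, sub_zero, zero_mul] at a6
    refine a6.congr' ?_
    filter_upwards [h0'] with x hx
    have hcx : 0 < cos x := cos_pos_of_mem_Ioo ⟨by linarith [hx.1], hx.2⟩
    have hs0 : 0 < sin x := sin_pos_of_pos_of_lt_pi hx.1 (by linarith [hx.2])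
    have e1 : 1 - sin x ^ 2 = cos x ^ 2 := by linarith [sin_sq_add_cos_sq x]
    change _ = (y (sin x) * Z2 (sin x) - Z (sin x) * y2 (sin x)) *
      (sin x ^ b * (1 - sin x ^ 2) ^ b)⁻¹
    rw [e1, ← pow_mul]
    field_simp
  have hw1 := nonneg_of_deriv_nonpos hwd (fun T _ => le_rfl) hlimw
  have hw2 := nonneg_of_deriv_nonpos (φ := fun T => -((y T * Z2 T - Z T * y2 T)
      * (T ^ b * (1 - T ^ 2) ^ b)⁻¹)) (φ' := fun _ => 0)
    (fun T hT => by simpa using (hwd T hT).fun_neg) (fun T _ => le_rfl)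
    (by simpa using hlimw.neg)
  have hD : ∀ T ∈ Ioo (0 : ℝ) 1, y T * Z2 T = Z T * y2 T := by
    intro T hT
    have h1 := hw1 T hT
    have h2 := hw2 T hT
    have hk : 0 < 1 - T ^ 2 := by nlinarith [hT.1, hT.2]
    have h3 : 0 < (T ^ b * (1 - T ^ 2) ^ b)⁻¹ :=
      inv_pos.2 (mul_pos (pow_pos hT.1 b) (pow_pos hk b))
    have h4 : (y T * Z2 T - Z T * y2 T) * (T ^ b * (1 - T ^ 2) ^ b)⁻¹ = 0 :=
      le_antisymm (by linarith) h1
    rcases mul_eq_zero.1 h4 with h5 | h5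
    · linarith
    · exact absurd h5 h3.ne'
  have hrd : ∀ T ∈ Ioo (0 : ℝ) 1, HasDerivAt (fun T => y T / y2 T) 0 T := by
    intro T hT
    have hT0 : T ≠ 0 := hT.1.ne'
    have hk : 1 - T ^ 2 ≠ 0 := by nlinarith [hT.1, hT.2]
    have hy2n := (hy2pos T hT).ne'
    have h1 := (hyc T hT).fun_div (hZ T hT) hy2n
    refine h1.congr_deriv ?_
    have h3 := hD T hT
    have e1 : ((Z T - y T - (2 * b - 1) * T ^ 2 * y T) / (T * (1 - T ^ 2)) * y2 T
        - y T * ((Z2 T - y2 T - (2 * b - 1) * T ^ 2 * y2 T) / (T * (1 - T ^ 2))))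
        = (Z T * y2 T - y T * Z2 T) / (T * (1 - T ^ 2)) := by
      field_simp
      ring
    simp only [hy2] at e1 h3 ⊢
    rw [e1, h3]
    simp
  have hlim0 : Tendsto (fun T => y T / y2 T) (𝓝[>] 0) (𝓝 1) := by
    have a1 : Tendsto y (𝓝[>] 0) (𝓝 (y 0)) := by
      have h1 := hc.cy 0 ⟨le_rfl, one_pos⟩
      refine h1.mono_left ?_
      have : 𝓝[>] (0 : ℝ) ≤ 𝓝[Ico 0 1] 0 := by
        rw [← nhdsWithin_Ioo_eq_nhdsGT (zero_lt_one (α := ℝ))]
        exact nhdsWithin_mono _ Ioo_subset_Ico_self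
      exact this
    have a2 : Tendsto y2 (𝓝[>] 0) (𝓝 (y2 0)) := by
      have hcc : Continuous y2 := by rw [hy2]; fun_prop
      exact (hcc.tendsto 0).mono_left nhdsWithin_le_nhds
    have e0 : y2 0 = P 0 := by simp [hy2]
    have hP00 := (hP0 0 ⟨le_rfl, zero_le_one⟩).ne'
    have a3 := a1.div a2 (by rw [e0]; exact hP00)
    rw [e0, h0, div_self hP00] at a3
    exact a3
  have hone : ∀ T ∈ Ioo (0 : ℝ) 1, y T / y2 T = 1 := by
    intro T hT
    have h1 : Tendsto (fun _ : ℝ => y T / y2 T) (𝓝[>] (0 : ℝ)) (𝓝 1) := by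
      refine hlim0.congr' ?_
      filter_upwards [Ioo_mem_nhdsGT (zero_lt_one (α := ℝ))] with t ht
      exact eq_of_deriv_zero hrd ht hT
    exact tendsto_nhds_unique tendsto_const_nhds h1
  intro T hT
  have h1 := hone T hT
  have h2 := hy2pos T hT
  rw [div_eq_one_iff_eq h2.ne'] at h1
  refine ⟨h1, ?_⟩
  have h3 := hD T hT
  rw [h1, mul_comm (y2 T)] at h3
  exact (mul_right_cancel₀ h2.ne' h3).symm

end Vale.Agent.P224.SMH
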