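import Vale.Agent.P224.SM2.Ana3

/-!
Closed forms of the functions `y` and `Z` in dimensions eight and twelve.
-/

namespace Vale.Agent.P224.SMH

open MeasureTheory Set Filter Function Real
open scoped Topology
open Vale.Agent.P224.SM2

/-- the root -/
noncomputable def wr (T θ : ℝ) : ℝ := √(sin θ ^ 2 + T ^ 2 * cos θ ^ 2)

lemma wr_pos {T : ℝ} (hT : T ≠ 0) (θ : ℝ) : 0 < wr T θ := sqrt_pos.2 (D_pos hT)

lemma wr_sq {T : ℝ} (hT : T ≠ 0) (θ : ℝ) : wr T θ ^ 2 = sin θ ^ 2 + T ^ 2 * cos θ ^ 2 :=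
  sq_sqrt (D_pos hT).le

lemma hasDerivAt_wr {T : ℝ} (hT : T ≠ 0) (θ : ℝ) :
    HasDerivAt (wr T) ((1 - T ^ 2) * (sin θ * cos θ) / wr T θ) θ := by
  have h1 : HasDerivAt (fun θ : ℝ => sin θ ^ 2 + T ^ 2 * cos θ ^ 2)
      (2 * sin θ * cos θ * (1 - T ^ 2)) θ := by
    have := ((hasDerivAt_sin θ).fun_pow 2).fun_add (((hasDerivAt_cos θ).fun_pow 2).const_mul (T ^ 2))
    refine this.congr_deriv ?_
    simp
    ring
  have h2 := h1.sqrt (D_pos hT).ne'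
  refine h2.congr_deriv ?_
  have := (wr_pos hT θ).ne'
  unfold wr at this ⊢
  field_simp

lemma wr_zero {T : ℝ} (hT : 0 < T) : wr T 0 = T := by
  unfold wr
  simp [sqrt_sq hT.le]

lemma wr_half {T : ℝ} : wr T (π / 2) = 1 := by
  unfold wr
  simp

/-- the integral of `(sin cos)^(2 k + 1) / w` by the substitution `w` -/
lemma II_of_prim {T : ℝ} (hT : T ∈ Ioo (0 : ℝ) 1) (k : ℕ) {P P' : ℝ → ℝ}
    (hP : ∀ w, HasDerivAt P (P' w) w)
    (hP' : ∀ w, P' w = ((w ^ 2 - T ^ 2) * (1 - w ^ 2)) ^ k) :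
    (1 - T ^ 2) ^ (2 * k + 1) * II (2 * k + 2 : ℕ) T = P 1 - P T := by
  have hT0 : T ≠ 0 := hT.1.ne'
  have hk := (kap_pos ⟨hT.1.le, hT.2⟩).ne'
  have h1 : ∀ θ ∈ uIcc (0 : ℝ) (π / 2), HasDerivAt (fun θ => P (wr T θ))
      ((1 - T ^ 2) ^ (2 * k + 1) * (wt (2 * k + 2 : ℕ) θ * Q T θ)) θ := by
    intro θ _
    have h2 := (hP (wr T θ)).comp θ (hasDerivAt_wr hT0 θ)
    refine h2.congr_deriv ?_
    have hw := (wr_pos hT0 θ).ne'
    have h3 : wt (2 * k + 2 : ℕ) θ = (sin θ * cos θ) ^ (2 * k + 1) := by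
      unfold wt
      rw [show ((2 * k + 2 : ℕ) : ℝ) - 1 = ((2 * k + 1 : ℕ) : ℝ) by push_cast; ring, rpow_natCast]
    have h4 : Q T θ = (wr T θ)⁻¹ := rfl
    have hs := sin_sq_add_cos_sq θ
    have h5 : (wr T θ ^ 2 - T ^ 2) * (1 - wr T θ ^ 2) =
        ((1 - T ^ 2) * (sin θ * cos θ)) ^ 2 := by
      rw [wr_sq hT0]
      have e1 : sin θ ^ 2 + T ^ 2 * cos θ ^ 2 - T ^ 2 = (1 - T ^ 2) * sin θ ^ 2 := by
        linear_combination (-T ^ 2) * (-hs)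
      have e2 : 1 - (sin θ ^ 2 + T ^ 2 * cos θ ^ 2) = (1 - T ^ 2) * cos θ ^ 2 := by
        linear_combination (-1 : ℝ) * hs
      rw [e1, e2]
      ring
    rw [hP', h5, h3, h4, ← pow_mul, mul_pow]
    field_simp
    rw [pow_succ, pow_succ (sin θ * cos θ)]
    ring
  have h6 := intervalIntegral.integral_eq_sub_of_hasDerivAt h1 ?_
  · rw [intervalIntegral.integral_const_mul] at h6
    rw [wr_zero hT.1, wr_half] at h6
    exact h6
  · refine Continuous.intervalIntegrable ?_ _ _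
    refine continuous_const.mul ((continuous_wt ?_).mul (contOn_slice_Q hT0))
    push_cast
    have : (0 : ℝ) ≤ k := Nat.cast_nonneg k
    linarith

section four

variable {c T : ℝ}

theorem yF_four (hT : T ∈ Ioo (0 : ℝ) 1) :
    yF 4 c T = c * (2 / 15) * (1 - T) ^ 3 * (1 + 3 * T + T ^ 2) := by
  have h := II_of_prim hT 1
    (P := fun w => (1 + T ^ 2) * w ^ 3 / 3 - w ^ 5 / 5 - T ^ 2 * w)
    (P' := fun w => (1 + T ^ 2) * w ^ 2 - w ^ 4 - T ^ 2) (fun w => by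
      have h1 := (((hasDerivAt_pow 3 w).const_mul (1 + T ^ 2)).div_const 3).sub
        ((hasDerivAt_pow 5 w).div_const 5)
      have h2 := h1.sub ((hasDerivAt_id w).const_mul (T ^ 2))
      refine (h2.congr_deriv ?_)
      simp
      ring) (fun w => by ring)
  have e1 : yF 4 c T = c * ((1 - T ^ 2) ^ (2 * 1 + 1) * II (2 * 1 + 2 : ℕ) T) := by
    unfold yF
    rw [show (4 : ℝ) - 1 = ((2 * 1 + 1 : ℕ) : ℝ) by norm_num, rpow_natCast]
    norm_num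
    ring
  rw [e1, h]
  ring

theorem yF_six (hT : T ∈ Ioo (0 : ℝ) 1) :
    yF 6 c T = c * (8 / 315) * (1 - T) ^ 5 * (1 + 5 * T + 9 * T ^ 2 + 5 * T ^ 3 + T ^ 4) := by
  have h := II_of_prim hT 2
    (P := fun w => (1 + 4 * T ^ 2 + T ^ 4) * w ^ 5 / 5 - 2 * (1 + T ^ 2) * w ^ 7 / 7
      - 2 * (T ^ 2 + T ^ 4) * w ^ 3 / 3 + w ^ 9 / 9 + T ^ 4 * w)
    (P' := fun w => (1 + 4 * T ^ 2 + T ^ 4) * w ^ 4 - 2 * (1 + T ^ 2) * w ^ 6
      - 2 * (T ^ 2 + T ^ 4) * w ^ 2 + w ^ 8 + T ^ 4) (fun w => by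
      have h1 := (((hasDerivAt_pow 5 w).const_mul (1 + 4 * T ^ 2 + T ^ 4)).div_const 5).sub
        (((hasDerivAt_pow 7 w).const_mul (2 * (1 + T ^ 2))).div_const 7)
      have h2 := (h1.sub (((hasDerivAt_pow 3 w).const_mul (2 * (T ^ 2 + T ^ 4))).div_const 3)).add
        ((hasDerivAt_pow 9 w).div_const 9)
      have h3 := h2.add ((hasDerivAt_id w).const_mul (T ^ 4))
      refine (h3.congr_deriv ?_)
      simp
      ring) (fun w => by ring)
  have e1 : yF 6 c T = c * ((1 - T ^ 2) ^ (2 * 2 + 1) * II (2 * 2 + 2 : ℕ) T) := by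
    unfold yF
    rw [show (6 : ℝ) - 1 = ((2 * 2 + 1 : ℕ) : ℝ) by norm_num, rpow_natCast]
    norm_num
    ring
  rw [e1, h]
  ring

/-- `Z` from `y` by the equation of `y` -/
lemma ZF_of_y {a : ℝ} (ha : 2 ≤ a) {Y Y' : ℝ → ℝ} (hY : ∀ T ∈ Ioo (0 : ℝ) 1, yF a c T = Y T)
    (hY' : ∀ T, HasDerivAt Y (Y' T) T) (hT : T ∈ Ioo (0 : ℝ) 1) :
    ZF a c T = T * (1 - T ^ 2) * Y' T + (1 + (2 * a - 3) * T ^ 2) * Y T := by
  have h1 := hasDerivAt_yF (c := c) ha hT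
  have h2 : HasDerivAt (yF a c) (Y' T) T := by
    refine (hY' T).congr_of_eventuallyEq ?_
    filter_upwards [isOpen_Ioo.mem_nhds hT] with x hx using hY x hx
  have h3 := h1.unique h2
  rw [div_eq_iff (mul_ne_zero hT.1.ne' (kap_pos ⟨hT.1.le, hT.2⟩).ne'), hY T hT] at h3
  linarith

theorem ZF_four (hT : T ∈ Ioo (0 : ℝ) 1) :
    ZF 4 c T = c * (2 / 15) * (1 - T) ^ 4 * (1 + 4 * T) := by
  have h := ZF_of_y (a := 4) (c := c) (by norm_num)
    (Y := fun T => c * (2 / 15) * (1 - 5 * T ^ 2 + 5 * T ^ 3 - T ^ 5))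
    (Y' := fun T => c * (2 / 15) * (-(10 * T) + 15 * T ^ 2 - 5 * T ^ 4)) (fun T hT => by
      rw [yF_four hT]; ring) (fun T => by
      have h1 := ((((hasDerivAt_pow 2 T).const_mul 5).const_sub 1).add
        ((hasDerivAt_pow 3 T).const_mul 5)).sub (hasDerivAt_pow 5 T)
      refine (h1.const_mul (c * (2 / 15))).congr_deriv ?_
      simp
      left
      ring) hT
  rw [h]
  ring

theorem ZF_six (hT : T ∈ Ioo (0 : ℝ) 1) :
    ZF 6 c T = c * (8 / 315) * (1 - T) ^ 6 * (1 + 6 * T + 12 * T ^ 2 + 2 * T ^ 3) := by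
  have h := ZF_of_y (a := 6) (c := c) (by norm_num)
    (Y := fun T => c * (8 / 315) * (1 - 6 * T ^ 2 + 21 * T ^ 4 - 21 * T ^ 5 + 6 * T ^ 7 - T ^ 9))
    (Y' := fun T => c * (8 / 315) * (-(12 * T) + 84 * T ^ 3 - 105 * T ^ 4 + 42 * T ^ 6 - 9 * T ^ 8))
    (fun T hT => by rw [yF_six hT]; ring) (fun T => by
      have h1 := ((((((hasDerivAt_pow 2 T).const_mul 6).const_sub 1).add
        ((hasDerivAt_pow 4 T).const_mul 21)).sub ((hasDerivAt_pow 5 T).const_mul 21)).add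
        ((hasDerivAt_pow 7 T).const_mul 6)).sub (hasDerivAt_pow 9 T)
      refine (h1.const_mul (c * (8 / 315))).congr_deriv ?_
      simp
      left
      ring) hT
  rw [h]
  ring

end four

end Vale.Agent.P224.SMH
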